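import Vale.Agent.P011.H496.Spl.SplF

/-!
# Split elements over a global function field, global statement (helper496)
-/

open Module Polynomial Matrix Topology

set_option linter.unusedSectionVars false

namespace Vale.Agent.P011.H496.Spl

open Vale.Agent.P011.H738 Vale.Agent.P011.H271 Vale.Agent.P011.H271.S3 Vale.Agent.P011.H698
open Vale.Agent.P011.H961 Vale.Agent.P011.H487.Spl Vale.Agent.P011.H271.StarF
open Vale.Agent.P011.H487 (HForm)
open Vale.Agent.P011.H182 (na coord_le_na)

/-- The algebra is split at all places above `v` (the text of `H961.exists_split_ae`). -/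
def SplAt (K D : Type) {k : Type} [Field k] [Field K] [Ring D] [Algebra k K] [Algebra K D] (n : ℕ)
    (v : Place k) : Prop :=
  ∀ (L : Type) [NontriviallyNormedField L] [ProperSpace L] [IsUltrametricDist L] (φ : K →+* L),
    (∀ c : k, ‖φ (algebraMap k K c)‖ = v.abv c) →
      ∃ g : D →+* Matrix (Fin n) (Fin n) L, ∀ c : K, g (algebraMap K D c) = algebraMap L _ (φ c)

variable {k K D : Type} [Field k] [GFF k] [Field K] [StarRing K] [DivisionRing D] [StarRing D]
  [Algebra k K] [Algebra k D] [Algebra K D] [IsScalarTower k K D] [StarModule K D] {n N : ℕ}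

/-- **The local statement.** -/
theorem loc_at (hk : IsGlobalFunctionField k) (hA : Anis k K D n) {m : ℕ} (hn : n = 2 * m + 1)
    (hm : m ≠ 0) (hdeg : ∀ x : D, (minpoly K x).natDegree ≤ n) (B : Basis (Fin N) k D)
    {v : Place k} (hv : SplAt K D n v) (hs : Finset D) (hu : ∀ h ∈ hs, h * star h = 1) :
    ∃ M0 : ℕ, ∀ M, M0 ≤ M → ∃ (a w : D) (ε : ℝ), a * star a = 1 ∧ w * star w = 1 ∧ 0 < ε ∧
      ∀ a' w' : D, a' * star a' = 1 → w' * star w' = 1 → Sm B v ε (a' - a) → Sm B v ε (w' - w) →
        ∀ h ∈ hs, GoodV K n v (h * cm a' w' ^ M) := by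
  classical
  have hcen := hA.central
  have hsim := hA.simple
  have hn0 : n ≠ 0 := by omega
  have hn3 : 3 ≤ n := by omega
  have : NeZero n := ⟨hn0⟩
  have hfd : FiniteDimensional K D := Module.finite_of_finrank_pos (by
    rw [hA.finrank_eq]
    positivity)
  have hint : ∀ x : D, IsIntegral K x := fun x => Algebra.IsIntegral.isIntegral x
  have hst : ∀ (c : k) (x : D), star (c • x) = c • star x := H519.star_smul_of_anis hA
  by_cases hsp : Nonempty (K →ₐ[k] v.comp)
  · obtain ⟨φ⟩ := hsp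
    let _ := nnfPlace v
    have hnorm : ∀ c : k, ‖(φ : K →+* v.comp) (algebraMap k K c)‖ = v.abv c := fun c => by
      change ‖φ (algebraMap k K c)‖ = _
      rw [φ.commutes, norm_alg]
    obtain ⟨g, hg⟩ := hv v.comp (φ : K →+* v.comp) hnorm
    have hd : DenseRange (φ : K →+* v.comp) := by
      have h1 : DenseRange (algebraMap k v.comp) := by
        rw [Metric.denseRange_iff]
        intro x ε hε
        obtain ⟨a, ha⟩ := dense_alg v x hε
        exact ⟨a, by rwa [dist_eq_norm]⟩
      intro y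
      refine closure_mono ?_ (h1 y)
      rintro _ ⟨c, rfl⟩
      exact ⟨algebraMap k K c, φ.commutes c⟩
    refine loc_gen hA.fixed hint hdeg hst B hd hnorm hg
      (exists_up B v (φ : K →+* v.comp) hnorm hg) (E := Set.univ) ?_ ?_ hs hu
    · have h := H800.dense_gl hA hn0 hg
      rw [h.closure_eq]
    · intro hs' h'
      obtain ⟨a, w, h1⟩ := loc_gl hs' h'
      exact ⟨a, w, Set.mem_univ _, Set.mem_univ _, h1⟩
  · rw [not_nonempty_iff] at hsp
    obtain ⟨L, _, _, _, _, _, φ, h1, h2, h3, h4, h5, h6⟩ :=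
      exists_quad_field hA.fixed hA.star_ne v hsp
    have hnorm : ∀ c : k, ‖φ (algebraMap k K c)‖ = v.abv c := fun c => by
      rw [h4, h5, norm_alg]
    obtain ⟨g, hg⟩ := hv L φ hnorm
    have hne : ∃ x : L, star x ≠ x := by
      obtain ⟨x, hx⟩ := hA.star_ne
      refine ⟨φ x, fun h => hx (φ.injective ?_)⟩
      rw [h2, h]
    obtain ⟨H, hH, hdet, hgH⟩ := H756.exists_herm hn0 hA.finrank_eq hne φ h2 g hg
    have hiso := hform_iso (L := L) fun j hj H' hH' =>
      H308.isotropic hk hA.fixed hA.star_ne h1 φ h2 h3 hj hH'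
    refine loc_gen hA.fixed hint hdeg hst B h3 hnorm hg (exists_up B v φ hnorm hg)
      (E := (UH H : Set (Matrix (Fin n) (Fin n) L)ˣ)) ?_ ?_ hs hu
    · exact H800.dense_u hA h1 φ h2 h3 hg hH hdet hgH
    · intro hs' h'
      obtain ⟨a, w, ha, hw, h7⟩ := loc_u hne h1 hiso hn hH hdet hs' h'
      exact ⟨a, w, ha, hw, h7⟩

theorem sm_of_na (B : Basis (Fin N) k D) {v : Place k} {ε : ℝ} {x : D} (h : na B v.abv x < ε) :
    Sm B v ε x := fun i => (coord_le_na B v.abv x i).trans_lt h

theorem nr_mul (hst : ∀ (c : k) (x : D), star (c • x) = c • star x) (B : Basis (Fin N) k D)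
    (T : Set (Place k)) {η : ℝ} (hη : 0 < η) :
    ∃ η' : ℝ, 0 < η' ∧ η' ≤ η ∧ ∀ x y : D, Nr B T η' x → Nr B T η' y →
      Nr B T η (x * y) ∧ Nr B T η (star x) := by
  obtain ⟨η1, h1, h1', h1''⟩ := near_div hst B T hη
  obtain ⟨η2, h2, h2', h2''⟩ := near_div hst B T h1
  have hone : ∀ e : ℝ, 0 < e → Nr B T e (1 : D) := by
    intro e he v _ i
    rw [sub_self, map_zero, Finsupp.zero_apply, map_zero]
    exact he
  refine ⟨η2, h2, h2'.trans h1', fun x y hx hy => ⟨?_, ?_⟩⟩
  · have h3 : Nr B T η1 (star y) := by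
      have := h2'' 1 y (hone _ h2) hy
      rwa [one_mul] at this
    have h4 := h1'' x (star y) (hx.mono h2') h3
    rwa [star_star] at h4
  · have := h1'' 1 x (hone _ h1) (hx.mono h2')
    rwa [one_mul] at this

/-- Words in elements close to one. -/
theorem nr_cm (hst : ∀ (c : k) (x : D), star (c • x) = c • star x) (B : Basis (Fin N) k D)
    (T : Set (Place k)) (M : ℕ) {η : ℝ} (hη : 0 < η) :
    ∃ η' : ℝ, 0 < η' ∧ ∀ a w : D, Nr B T η' a → Nr B T η' w → Nr B T η (cm a w ^ M) := by
  have hone : ∀ e : ℝ, 0 < e → Nr B T e (1 : D) := by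
    intro e he v _ i
    rw [sub_self, map_zero, Finsupp.zero_apply, map_zero]
    exact he
  have hpow : ∀ (M : ℕ) (η : ℝ), 0 < η → ∃ η' : ℝ, 0 < η' ∧ ∀ x : D, Nr B T η' x →
      Nr B T η (x ^ M) := by
    intro M
    induction M with
    | zero => exact fun η hη => ⟨1, one_pos, fun x _ => by rw [pow_zero]; exact hone η hη⟩
    | succ M ih =>
      intro η hη
      obtain ⟨η1, h1, -, h1'⟩ := nr_mul hst B T hη
      obtain ⟨η2, h2, h2'⟩ := ih η1 h1
      refine ⟨min η1 η2, lt_min h1 h2, fun x hx => ?_⟩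
      rw [pow_succ]
      exact (h1' _ _ (h2' x (hx.mono (min_le_right _ _))) (hx.mono (min_le_left _ _))).1
  obtain ⟨η1, h1, h1'⟩ := hpow M η hη
  obtain ⟨η2, h2, h2e, h2'⟩ := nr_mul hst B T h1
  obtain ⟨η3, h3, h3e, h3'⟩ := nr_mul hst B T h2
  obtain ⟨η4, h4, h4e, h4'⟩ := nr_mul hst B T h3
  refine ⟨η4, h4, fun a w ha hw => h1' _ ?_⟩
  have e1 : Nr B T η3 (a * w) := (h4' a w ha hw).1
  have e2 : Nr B T η3 (star a) := (h4' a w ha hw).2
  have e3 : Nr B T η3 (star w) := (h4' w a hw ha).2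
  have e4 : Nr B T η2 (a * w * star a) := (h3' _ _ e1 e2).1
  exact (h2' _ _ e4 (e3.mono h3e)).1

/-- **(LOC) over function fields: the split elements.** -/
theorem exists_split (hk : IsGlobalFunctionField k) (hA : Anis k K D n) (hn : Odd n) (hn3 : 3 ≤ n)
    {Ω : Type} [Field Ω] [Algebra K Ω] (f : D →ₐ[K] Matrix (Fin n) (Fin n) Ω)
    (B : Basis (Fin N) k D) {T : Set (Place k)} (hT : T.Finite) (S : Finset (Place k))
    (hST : ∀ v ∈ S, v ∉ T) (hS : ∀ v ∈ S, SplAt K D n v) (hs : Finset D)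
    (hu : ∀ h ∈ hs, h * star h = 1) {q : ℕ} (hq : q ≠ 0) {ε : ℝ} (hε : 0 < ε) :
    ∃ g : SUA f, Nr B T ε ((g : Dˣ) : D) ∧ ∀ h ∈ hs, ∀ v ∈ S, ∀ W : Place K, Ab W v →
      (minpoly K (h * ((g : Dˣ) : D) ^ q)).natDegree = n ∧
        ((minpoly K (h * ((g : Dˣ) : D) ^ q)).map (algebraMap K W.comp)).Splits := by
  classical
  obtain ⟨m, hm⟩ := hn
  have hcen := hA.central
  have hsim := hA.simple
  have hfd : FiniteDimensional K D := Module.finite_of_finrank_pos (by
    rw [hA.finrank_eq]
    positivity)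
  have hst : ∀ (c : k) (x : D), star (c • x) = c • star x := H519.star_smul_of_anis hA
  have hdeg : ∀ x : D, (minpoly K x).natDegree ≤ n := fun x => W.natDegree_le (by omega) f x
  have hl : ∀ v : Place k, ∃ M0 : ℕ, v ∈ S → ∀ M, M0 ≤ M → ∃ (a w : D) (ε : ℝ),
      a * star a = 1 ∧ w * star w = 1 ∧ 0 < ε ∧
      ∀ a' w' : D, a' * star a' = 1 → w' * star w' = 1 → Sm B v ε (a' - a) → Sm B v ε (w' - w) →
        ∀ h ∈ hs, GoodV K n v (h * cm a' w' ^ M) := by
    intro v
    by_cases hv : v ∈ S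
    · obtain ⟨M0, h⟩ := loc_at hk hA hm (by omega) hdeg B (hS v hv) hs hu
      exact ⟨M0, fun _ => h⟩
    · exact ⟨0, fun h => absurd h hv⟩
  choose M0 hM0 using hl
  set M1 : ℕ := ∑ v ∈ S, M0 v with hM1
  have hMq : ∀ v ∈ S, M0 v ≤ M1 * q := fun v hv =>
    (Finset.single_le_sum (fun _ _ => Nat.zero_le _) hv).trans
      (Nat.le_mul_of_pos_right _ (Nat.pos_of_ne_zero hq))
  have hl2 : ∀ v : Place k, ∃ (a w : D) (ε : ℝ), a * star a = 1 ∧ w * star w = 1 ∧ 0 < ε ∧
      (v ∈ S → ∀ a' w' : D, a' * star a' = 1 → w' * star w' = 1 → Sm B v ε (a' - a) →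
        Sm B v ε (w' - w) → ∀ h ∈ hs, GoodV K n v (h * cm a' w' ^ (M1 * q))) := by
    intro v
    by_cases hv : v ∈ S
    · obtain ⟨a, w, ε, h1, h2, h3, h4⟩ := hM0 v hv (M1 * q) (hMq v hv)
      exact ⟨a, w, ε, h1, h2, h3, fun _ => h4⟩
    · exact ⟨1, 1, 1, by rw [star_one, mul_one], by rw [star_one, mul_one], one_pos,
        fun h => absurd h hv⟩
  choose a w e ha hw he hgood using hl2
  obtain ⟨η, hη, hnear⟩ := nr_cm hst B T M1 hε
  -- the weak approximation
  have hP : ((S : Set (Place k)) ∪ T).Finite := S.finite_toSet.union hT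
  have hone : (1 : D) * star 1 = 1 := by rw [star_one, mul_one]
  obtain ⟨x, hx, hx'⟩ := WauF.wa_unitaryF hA B hP
    (u := fun v => if v ∈ S then a v else 1) (fun v _ => by
      by_cases hv : v ∈ S
      · simp only [hv, if_true]
        exact ha v
      · simp only [hv, if_false]
        exact hone) (ε := fun v => if v ∈ S then e v else η) (fun v => by
      by_cases hv : v ∈ S
      · simp only [hv, if_true]
        exact he v
      · simp only [hv, if_false]
        exact hη)
  obtain ⟨y, hy, hy'⟩ := WauF.wa_unitaryF hA B hP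
    (u := fun v => if v ∈ S then w v else 1) (fun v _ => by
      by_cases hv : v ∈ S
      · simp only [hv, if_true]
        exact hw v
      · simp only [hv, if_false]
        exact hone) (ε := fun v => if v ∈ S then e v else η) (fun v => by
      by_cases hv : v ∈ S
      · simp only [hv, if_true]
        exact he v
      · simp only [hv, if_false]
        exact hη)
  have hcu : cm x y * star (cm x y) = 1 := uni_cm hx hy
  have hgu : cm x y ^ M1 * star (cm x y ^ M1) = 1 := uni_pow hcu M1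
  have hdet : (f (cm x y ^ M1)).det = 1 := by
    have h1 : (f (cm x y)).det = 1 := by
      have h2 : (f x).det * (f (star x)).det = 1 := by
        rw [← Matrix.det_mul, ← map_mul, hx, map_one, Matrix.det_one]
      have h3 : (f y).det * (f (star y)).det = 1 := by
        rw [← Matrix.det_mul, ← map_mul, hy, map_one, Matrix.det_one]
      rw [cm, map_mul, map_mul, map_mul, Matrix.det_mul, Matrix.det_mul, Matrix.det_mul]
      calc (f x).det * (f y).det * (f (star x)).det * (f (star y)).det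
          = ((f x).det * (f (star x)).det) * ((f y).det * (f (star y)).det) := by ring
        _ = 1 := by rw [h2, h3, one_mul]
    rw [map_pow, Matrix.det_pow, h1, one_pow]
  refine ⟨⟨⟨cm x y ^ M1, star (cm x y ^ M1), hgu, uni_comm hgu⟩, hgu, hdet⟩, ?_, ?_⟩
  · refine hnear x y ?_ ?_
    · intro v hv
      have h1 := hx' v (Set.mem_union_right _ hv)
      have hvS : v ∉ S := fun h => hST v h hv
      simp only [hvS, if_false] at h1
      exact sm_of_na B h1
    · intro v hv
      have h1 := hy' v (Set.mem_union_right _ hv)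
      have hvS : v ∉ S := fun h => hST v h hv
      simp only [hvS, if_false] at h1
      exact sm_of_na B h1
  · intro h hh v hv W hW
    have h1 := hx' v (Set.mem_union_left _ hv)
    have h2 := hy' v (Set.mem_union_left _ hv)
    simp only [hv, if_true] at h1 h2
    have h3 := hgood v hv x y hx hy (sm_of_na B h1) (sm_of_na B h2) h hh W hW
    rw [pow_mul] at h3
    exact h3

end Vale.Agent.P011.H496.Spl
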