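import Mathlib

/-!
# Functions that are polynomial on lines (helper496)

`V` is a vector space over an infinite field `k`, the values are in an extension field `L`.  Finitely
many functions that are polynomial on lines and each not identically zero have a common point where
none vanishes.
-/

open Polynomial Finset

namespace Vale.Agent.P011.H496.Spl

section

variable {k L V : Type*} [Field k] [Field L] [Algebra k L] [AddCommGroup V] [Module k V]

/-- The function is polynomial on lines. -/
def PL (k : Type*) {L V : Type*} [Field k] [Field L] [Algebra k L] [AddCommGroup V] [Module k V]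
    (f : V → L) : Prop :=
  ∀ a b : V, ∃ p : L[X], ∀ t : k, f (a + t • b) = p.eval (algebraMap k L t)

theorem PL.const (c : L) : PL k fun _ : V => c := fun _ _ => ⟨C c, fun t => by rw [eval_C]⟩

theorem PL.add {f g : V → L} (hf : PL k f) (hg : PL k g) : PL k fun v => f v + g v := by
  intro a b
  obtain ⟨p, hp⟩ := hf a b
  obtain ⟨q, hq⟩ := hg a b
  exact ⟨p + q, fun t => by beta_reduce; rw [eval_add, hp, hq]⟩

theorem PL.neg {f : V → L} (hf : PL k f) : PL k fun v => -f v := by
  intro a b
  obtain ⟨p, hp⟩ := hf a b
  exact ⟨-p, fun t => by beta_reduce; rw [eval_neg, hp]⟩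

theorem PL.sub {f g : V → L} (hf : PL k f) (hg : PL k g) : PL k fun v => f v - g v := by
  intro a b
  obtain ⟨p, hp⟩ := hf a b
  obtain ⟨q, hq⟩ := hg a b
  exact ⟨p - q, fun t => by beta_reduce; rw [eval_sub, hp, hq]⟩

theorem PL.mul {f g : V → L} (hf : PL k f) (hg : PL k g) : PL k fun v => f v * g v := by
  intro a b
  obtain ⟨p, hp⟩ := hf a b
  obtain ⟨q, hq⟩ := hg a b
  exact ⟨p * q, fun t => by beta_reduce; rw [eval_mul, hp, hq]⟩

theorem PL.sum {ι : Type*} (s : Finset ι) {f : ι → V → L} (hf : ∀ i ∈ s, PL k (f i)) :
    PL k fun v => ∑ i ∈ s, f i v := by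
  classical
  induction s using Finset.induction_on with
  | empty => simpa only [Finset.sum_empty] using PL.const (k := k) (V := V) (0 : L)
  | insert a s ha ih =>
    simp only [Finset.sum_insert ha]
    exact (hf a (Finset.mem_insert_self a s)).add (ih fun i hi => hf i (Finset.mem_insert_of_mem hi))

theorem PL.prod {ι : Type*} (s : Finset ι) {f : ι → V → L} (hf : ∀ i ∈ s, PL k (f i)) :
    PL k fun v => ∏ i ∈ s, f i v := by
  classical
  induction s using Finset.induction_on with
  | empty => simpa only [Finset.prod_empty] using PL.const (k := k) (V := V) (1 : L)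
  | insert a s ha ih =>
    simp only [Finset.prod_insert ha]
    exact (hf a (Finset.mem_insert_self a s)).mul (ih fun i hi => hf i (Finset.mem_insert_of_mem hi))

/-- Maps with `f (a + t b) = f a + t f b` are polynomial on lines. -/
theorem PL.of_lin {f : V → L} (hf : ∀ a b : V, ∀ t : k, f (a + t • b) = f a + algebraMap k L t * f b) :
    PL k f := fun a b => ⟨C (f a) + X * C (f b), fun t => by
  rw [hf, eval_add, eval_mul, eval_C, eval_X, eval_C]⟩

theorem PL.det {n : Type*} [Fintype n] [DecidableEq n] {M : V → Matrix n n L}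
    (hM : ∀ i j, PL k fun v => M v i j) : PL k fun v => (M v).det := by
  simp only [Matrix.det_apply']
  exact PL.sum _ fun σ _ => (PL.const _).mul (PL.prod _ fun i _ => hM _ _)

theorem PL.mulM {l m n : Type*} [Fintype m] {M : V → Matrix l m L} {N : V → Matrix m n L}
    (hM : ∀ i j, PL k fun v => M v i j) (hN : ∀ i j, PL k fun v => N v i j) (i : l) (j : n) :
    PL k fun v => (M v * N v) i j := by
  simp only [Matrix.mul_apply]
  exact PL.sum _ fun x _ => (hM _ _).mul (hN _ _)

theorem PL.adj {n : Type*} [Fintype n] [DecidableEq n] {M : V → Matrix n n L}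
    (hM : ∀ i j, PL k fun v => M v i j) (i j : n) : PL k fun v => (M v).adjugate i j := by
  simp only [Matrix.adjugate_apply]
  refine PL.det fun i' j' => ?_
  simp only [Matrix.updateRow_apply]
  split_ifs with h
  · exact PL.const _
  · exact hM _ _

/-- **Common nonzero**: finitely many functions polynomial on lines. -/
theorem exists_common [Infinite k] {ι : Type*} (s : Finset ι) {f : ι → V → L}
    (hf : ∀ i ∈ s, PL k (f i)) (h : ∀ i ∈ s, ∃ v, f i v ≠ 0) : ∃ v, ∀ i ∈ s, f i v ≠ 0 := by
  classical
  induction s using Finset.induction_on with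
  | empty => exact ⟨0, fun i hi => absurd hi (Finset.notMem_empty i)⟩
  | insert a s ha ih =>
    obtain ⟨v, hv⟩ := ih (fun i hi => hf i (Finset.mem_insert_of_mem hi))
      (fun i hi => h i (Finset.mem_insert_of_mem hi))
    obtain ⟨w, hw⟩ := h a (Finset.mem_insert_self a s)
    have hp : ∀ i : ι, ∃ p : L[X], i ∈ insert a s →
        ∀ t : k, f i (v + t • (w - v)) = p.eval (algebraMap k L t) := by
      intro i
      by_cases hi : i ∈ insert a s
      · obtain ⟨p, hp⟩ := hf i hi v (w - v)
        exact ⟨p, fun _ => hp⟩
      · exact ⟨0, fun h => absurd h hi⟩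
    choose p hp using hp
    have hne : ∀ i ∈ insert a s, p i ≠ 0 := by
      intro i hi h0
      rcases Finset.mem_insert.1 hi with rfl | hi'
      · have h1 := hp i hi 1
        rw [h0, eval_zero, one_smul, add_sub_cancel] at h1
        exact hw h1
      · have h1 := hp i hi 0
        rw [h0, eval_zero, zero_smul, add_zero] at h1
        exact hv i hi' h1
    have hq : (∏ i ∈ insert a s, p i) ≠ 0 := Finset.prod_ne_zero_iff.2 hne
    have hfin : {t : k | (∏ i ∈ insert a s, p i).eval (algebraMap k L t) = 0}.Finite := by
      have h1 := (∏ i ∈ insert a s, p i).roots.toFinset.finite_toSet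
      refine (h1.preimage (algebraMap k L).injective.injOn).subset fun t ht => ?_
      rw [Set.mem_preimage, Finset.mem_coe, Multiset.mem_toFinset, mem_roots hq]
      exact ht
    obtain ⟨t, ht⟩ := hfin.exists_notMem
    refine ⟨v + t • (w - v), fun i hi => ?_⟩
    rw [hp i hi t]
    intro h0
    refine ht ?_
    rw [Set.mem_ofPred_eq, eval_prod]
    exact Finset.prod_eq_zero hi h0

end

end Vale.Agent.P011.H496.Spl
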