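import Vale.Agent.P011.H496.Spl.Asym
import Vale.Agent.P011.H496.Spl.PL

/-!
# Split elements in the general linear group (helper496)

(S2GL): finitely many invertible matrices have a common conjugation making all leading minors
different from zero.  (S3GL): `A (a w a⁻¹ w⁻¹) ^ M` satisfies the strict Newton condition.
-/

open Matrix Finset

namespace Vale.Agent.P011.H496.Spl

open Vale.Agent.P011.H487.Spl

section

variable {F : Type*} [Field F] {n : ℕ}

/-- The projection on the first coordinates. -/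
def E0 (F : Type*) [Field F] (n i : ℕ) : Matrix (Fin n) (Fin n) F :=
  Matrix.diagonal fun j => if (j : ℕ) < i then 1 else 0

theorem LM_eq (A : Matrix (Fin n) (Fin n) F) (i : ℕ) : LM A i = E0 F n i * A + (1 - E0 F n i) := by
  ext a b
  rw [Matrix.add_apply, E0, Matrix.diagonal_mul, Matrix.sub_apply, Matrix.diagonal_apply, LM]
  by_cases h : (a : ℕ) < i
  · by_cases hab : a = b
    · subst hab
      simp [h]
    · simp [h, hab]
  · by_cases hab : a = b
    · subst hab
      simp [h]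
    · simp [h, hab]

theorem E0_mul_E0 (i : ℕ) : E0 F n i * E0 F n i = E0 F n i := by
  rw [E0, Matrix.diagonal_mul_diagonal]
  congr 1
  ext j
  split_ifs <;> simp

/-- `LM (P A P⁻¹) i * P = LM (X A) i` for `P = LM X i`. -/
theorem LM_conj {X A P : Matrix (Fin n) (Fin n) F} {P' : Matrix (Fin n) (Fin n) F} {i : ℕ}
    (hP : P = LM X i) (hPP : P' * P = 1) : LM (P * A * P') i * P = LM (X * A) i := by
  rw [LM_eq, LM_eq (X * A)]
  set E := E0 F n i with hE
  have hEE : E * E = E := E0_mul_E0 i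
  have e1 : E * P = E * X := by
    rw [hP, LM_eq, ← hE, Matrix.mul_add, ← Matrix.mul_assoc, hEE, Matrix.mul_sub, hEE,
      Matrix.mul_one, sub_self, add_zero]
  have e2 : (1 - E) * P = 1 - E := by
    rw [Matrix.sub_mul, Matrix.one_mul, e1, hP, LM_eq, ← hE]
    abel
  calc (E * (P * A * P') + (1 - E)) * P = (E * P) * A * (P' * P) + (1 - E) * P := by
        noncomm_ring
    _ = E * (X * A) + (1 - E) := by rw [hPP, e1, e2, Matrix.mul_one, Matrix.mul_assoc]

theorem LM_one (i : ℕ) : LM (1 : Matrix (Fin n) (Fin n) F) i = 1 := by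
  ext a b
  rw [LM]
  split_ifs <;> rfl

theorem PL.LM {k V : Type*} [Field k] [Algebra k F] [AddCommGroup V] [Module k V]
    {M : V → Matrix (Fin n) (Fin n) F} (hM : ∀ i j, PL k fun v => M v i j) (i : ℕ)
    (a b : Fin n) : PL k fun v => (Vale.Agent.P011.H487.Spl.LM (M v) i) a b := by
  simp only [Vale.Agent.P011.H487.Spl.LM]
  by_cases h : (a : ℕ) < i
  · simp only [h, if_true]
    exact hM _ _
  · simp only [h, if_false]
    exact PL.const _

/-- One leading minor of one conjugate. -/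
theorem exists_conj [Infinite F] {A : Matrix (Fin n) (Fin n) F} (hA : A.det ≠ 0) (i : ℕ) :
    ∃ P : Matrix (Fin n) (Fin n) F, P.det ≠ 0 ∧ (LM (P * A * P⁻¹) i).det ≠ 0 := by
  classical
  have hid : ∀ a b : Fin n, PL F fun v : Matrix (Fin n) (Fin n) F => v a b := fun a b =>
    PL.of_lin fun x y t => by
      rw [Matrix.add_apply, Matrix.smul_apply, smul_eq_mul, Algebra.algebraMap_self,
        RingHom.id_apply]
  obtain ⟨X, hX⟩ := exists_common (k := F) (L := F) (V := Matrix (Fin n) (Fin n) F)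
    (Finset.univ : Finset Bool)
    (f := fun b X => if b then (LM X i).det else (LM (X * A) i).det)
    (by
      intro b _
      cases b
      · exact PL.det (PL.LM (PL.mulM (N := fun _ => A) hid fun _ _ => PL.const _) i)
      · exact PL.det (PL.LM hid i))
    (by
      intro b _
      cases b
      · refine ⟨A⁻¹, ?_⟩
        simp only [Bool.false_eq_true, if_false]
        rw [Matrix.nonsing_inv_mul _ (isUnit_iff_ne_zero.2 hA), LM_one, Matrix.det_one]
        exact one_ne_zero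
      · refine ⟨1, ?_⟩
        simp only [if_true]
        rw [LM_one, Matrix.det_one]
        exact one_ne_zero)
  have h1 : (LM X i).det ≠ 0 := hX true (Finset.mem_univ _)
  have h2 : (LM (X * A) i).det ≠ 0 := hX false (Finset.mem_univ _)
  refine ⟨LM X i, h1, ?_⟩
  have h3 := LM_conj (X := X) (A := A) (P := LM X i) (P' := (LM X i)⁻¹) (i := i) rfl
    (Matrix.nonsing_inv_mul _ (isUnit_iff_ne_zero.2 h1))
  intro h0
  have h4 := congrArg Matrix.det h3
  rw [Matrix.det_mul, h0, zero_mul] at h4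
  exact h2 h4.symm

theorem LM_smul_det (c : F) (A : Matrix (Fin n) (Fin n) F) (i : ℕ) :
    ∃ e : ℕ, (LM (c • A) i).det = c ^ e * (LM A i).det := by
  refine ⟨(Finset.filter (fun j : Fin n => (j : ℕ) < i) Finset.univ).card, ?_⟩
  have h : LM (c • A) i = Matrix.diagonal (fun j : Fin n => if (j : ℕ) < i then c else 1) *
      LM A i := by
    ext a b
    rw [Matrix.diagonal_mul, LM, LM]
    split_ifs with h
    · rw [Matrix.smul_apply, smul_eq_mul]
    · rw [one_mul]
  rw [h, Matrix.det_mul, Matrix.det_diagonal, Finset.prod_ite, Finset.prod_const,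
    Finset.prod_const_one, mul_one]

/-- The conditions on the frame. -/
noncomputable def fr (b : Option (Matrix (Fin n) (Fin n) F × ℕ)) (P : Matrix (Fin n) (Fin n) F) :
    F :=
  b.elim P.det fun x => (LM (P * x.1 * P.adjugate) x.2).det

theorem fr_pl (b : Option (Matrix (Fin n) (Fin n) F × ℕ)) : PL F (fr b) := by
  have hid : ∀ a b : Fin n, PL F fun v : Matrix (Fin n) (Fin n) F => v a b := fun a b =>
    PL.of_lin fun x y t => by
      rw [Matrix.add_apply, Matrix.smul_apply, smul_eq_mul, Algebra.algebraMap_self,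
        RingHom.id_apply]
  cases b with
  | none => exact PL.det hid
  | some x =>
    have h1 : ∀ i j, PL F fun v : Matrix (Fin n) (Fin n) F => (v * x.1) i j :=
      PL.mulM (N := fun _ => x.1) hid fun _ _ => PL.const _
    have h2 : ∀ i j, PL F fun v : Matrix (Fin n) (Fin n) F => (v * x.1 * v.adjugate) i j :=
      PL.mulM (M := fun v => v * x.1) (N := fun v => v.adjugate) h1 (PL.adj hid)
    exact PL.det (PL.LM h2 x.2)

theorem adj_eq {P A : Matrix (Fin n) (Fin n) F} (hP : P.det ≠ 0) :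
    P * A * P.adjugate = P.det • (P * A * P⁻¹) := by
  rw [Matrix.inv_def, Matrix.mul_smul, smul_smul, Ring.inverse_eq_inv', mul_inv_cancel₀ hP,
    one_smul]

/-- **(S2GL)** A common frame. -/
theorem frame_gl [Infinite F] (hs : Finset (Matrix (Fin n) (Fin n) F)) (h : ∀ A ∈ hs, A.det ≠ 0) :
    ∃ P : (Matrix (Fin n) (Fin n) F)ˣ, ∀ A ∈ hs,
      Lead ((P : Matrix (Fin n) (Fin n) F) * A * ((P⁻¹ : (Matrix (Fin n) (Fin n) F)ˣ) :
        Matrix (Fin n) (Fin n) F)) := by
  classical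
  obtain ⟨P, hP⟩ := exists_common (k := F) (L := F) (V := Matrix (Fin n) (Fin n) F)
    (insert none ((hs ×ˢ Finset.range (n + 1)).image some)) (f := fr) (fun b _ => fr_pl b)
    (by
      intro b hb
      cases b with
      | none =>
        refine ⟨1, ?_⟩
        change (1 : Matrix (Fin n) (Fin n) F).det ≠ 0
        rw [Matrix.det_one]
        exact one_ne_zero
      | some x =>
        have hA : x.1 ∈ hs := by
          rcases Finset.mem_insert.1 hb with h0 | h0
          · exact absurd h0 (Option.some_ne_none _)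
          · obtain ⟨y, hy, hy2⟩ := Finset.mem_image.1 h0
            rw [Option.some.injEq] at hy2
            rw [hy2] at hy
            exact (Finset.mem_product.1 hy).1
        obtain ⟨P, hP1, hP2⟩ := exists_conj (h x.1 hA) x.2
        refine ⟨P, ?_⟩
        change (LM (P * x.1 * P.adjugate) x.2).det ≠ 0
        rw [adj_eq hP1]
        obtain ⟨e, he⟩ := LM_smul_det P.det (P * x.1 * P⁻¹) x.2
        rw [he]
        exact mul_ne_zero (pow_ne_zero e hP1) hP2)
  have hP0 : P.det ≠ 0 := hP none (Finset.mem_insert_self _ _)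
  obtain ⟨P, rfl⟩ : IsUnit P := (Matrix.isUnit_iff_isUnit_det _).2 (isUnit_iff_ne_zero.2 hP0)
  refine ⟨P, fun A hA i hi => ?_⟩
  have h1 : (LM ((P : Matrix (Fin n) (Fin n) F) * A *
      (P : Matrix (Fin n) (Fin n) F).adjugate) i).det ≠ 0 :=
    hP (some (A, i)) (Finset.mem_insert_of_mem (Finset.mem_image.2 ⟨(A, i),
      Finset.mem_product.2 ⟨hA, Finset.mem_range.2 (Nat.lt_succ_of_le hi)⟩, rfl⟩))
  rw [adj_eq hP0] at h1
  obtain ⟨e, he⟩ := LM_smul_det (P : Matrix (Fin n) (Fin n) F).det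
    ((P : Matrix (Fin n) (Fin n) F) * A * (P : Matrix (Fin n) (Fin n) F)⁻¹) i
  rw [he] at h1
  rw [Matrix.coe_units_inv]
  exact right_ne_zero_of_mul h1

end

/-! ### Commutators of diagonal matrices and the reversal -/

section

variable {F : Type*} [Field F] {n : ℕ}

/-- The reversal. -/
def rv (F : Type*) [Field F] (n : ℕ) : Matrix (Fin n) (Fin n) F :=
  Matrix.of fun i j => if j = Fin.rev i then 1 else 0

theorem rv_mul (A : Matrix (Fin n) (Fin n) F) (i j : Fin n) : (rv F n * A) i j = A (Fin.rev i) j := by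
  simp [rv, Matrix.mul_apply]

theorem mul_rv (A : Matrix (Fin n) (Fin n) F) (i j : Fin n) : (A * rv F n) i j = A i (Fin.rev j) := by
  rw [Matrix.mul_apply]
  have h : ∀ x : Fin n, A i x * rv F n x j = if x = Fin.rev j then A i x else 0 := by
    intro x
    rw [rv, Matrix.of_apply]
    by_cases h : x = Fin.rev j
    · have h' : j = Fin.rev x := by rw [h, Fin.rev_rev]
      rw [if_pos h', if_pos h, mul_one]
    · have h' : j ≠ Fin.rev x := fun e => h (by rw [e, Fin.rev_rev])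
      rw [if_neg h', if_neg h, mul_zero]
  rw [Finset.sum_congr rfl fun x _ => h x, Finset.sum_ite_eq' Finset.univ (Fin.rev j) fun x => A i x,
    if_pos (Finset.mem_univ _)]

theorem rv_rv : rv F n * rv F n = 1 := by
  ext i j
  rw [rv_mul, rv, Matrix.of_apply, Fin.rev_rev, Matrix.one_apply]
  simp only [eq_comm]

theorem rv_conj (d : Fin n → F) :
    rv F n * Matrix.diagonal d * rv F n = Matrix.diagonal fun i => d (Fin.rev i) := by
  ext i j
  rw [mul_rv, rv_mul, Matrix.diagonal_apply, Matrix.diagonal_apply]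
  by_cases h : i = j
  · rw [if_pos h, if_pos (by rw [h])]
  · rw [if_neg h, if_neg fun e => h (Fin.rev_injective e)]

end

section

variable {F : Type*} [NontriviallyNormedField F] [IsUltrametricDist F] {n : ℕ}

/-- **(S3GL)** -/
theorem loc_gl (hs : Finset (Matrix (Fin n) (Fin n) F)) (h : ∀ A ∈ hs, A.det ≠ 0) :
    ∃ a w : (Matrix (Fin n) (Fin n) F)ˣ, ∃ M0 : ℕ, ∀ M, M0 ≤ M → ∀ A ∈ hs,
      NW n fun i => ‖(A * ((a * w * a⁻¹ * w⁻¹ : (Matrix (Fin n) (Fin n) F)ˣ) :
        Matrix (Fin n) (Fin n) F) ^ M).charpoly.coeff i‖ := by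
  classical
  obtain ⟨P, hP⟩ := frame_gl hs h
  obtain ⟨c, hc⟩ := NormedField.exists_one_lt_norm F
  have hc0 : c ≠ 0 := by
    intro h0
    rw [h0, norm_zero] at hc
    linarith
  have hcn : (0 : ℝ) < ‖c‖ := zero_lt_one.trans hc
  let d : Fin n → F := fun i => (c⁻¹) ^ (i : ℕ)
  let d' : Fin n → F := fun i => c ^ (i : ℕ)
  let a0 : (Matrix (Fin n) (Fin n) F)ˣ :=
    ⟨Matrix.diagonal d, Matrix.diagonal d', by
      rw [Matrix.diagonal_mul_diagonal, ← Matrix.diagonal_one]
      congr 1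
      ext i
      change (c⁻¹) ^ (i : ℕ) * c ^ (i : ℕ) = 1
      rw [← mul_pow, inv_mul_cancel₀ hc0, one_pow], by
      rw [Matrix.diagonal_mul_diagonal, ← Matrix.diagonal_one]
      congr 1
      ext i
      change c ^ (i : ℕ) * (c⁻¹) ^ (i : ℕ) = 1
      rw [← mul_pow, mul_inv_cancel₀ hc0, one_pow]⟩
  let w0 : (Matrix (Fin n) (Fin n) F)ˣ := ⟨rv F n, rv F n, rv_rv, rv_rv⟩
  let t : Fin n → F := fun i => (c⁻¹) ^ (i : ℕ) * c ^ (Fin.rev i : ℕ)
  have ht0 : ∀ i, t i ≠ 0 := fun i => mul_ne_zero (pow_ne_zero _ (inv_ne_zero hc0)) (pow_ne_zero _ hc0)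
  have ht : StrictAnti fun i => ‖t i‖ := by
    intro i j hij
    have h1 : ‖(c⁻¹) ^ (j : ℕ)‖ < ‖(c⁻¹) ^ (i : ℕ)‖ := by
      rw [norm_pow, norm_pow, norm_inv]
      exact pow_lt_pow_right_of_lt_one₀ (inv_pos.2 hcn) (inv_lt_one_of_one_lt₀ hc)
        (Fin.lt_def.1 hij)
    have h2 : ‖c ^ (Fin.rev j : ℕ)‖ ≤ ‖c ^ (Fin.rev i : ℕ)‖ := by
      rw [norm_pow, norm_pow]
      exact pow_le_pow_right₀ hc.le (Fin.le_def.1 (Fin.rev_le_rev.2 hij.le))
    change ‖(c⁻¹) ^ (j : ℕ) * c ^ (Fin.rev j : ℕ)‖ < ‖(c⁻¹) ^ (i : ℕ) * c ^ (Fin.rev i : ℕ)‖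
    rw [norm_mul, norm_mul]
    exact mul_lt_mul h1 h2 (norm_pos_iff.2 (pow_ne_zero _ hc0)) (norm_nonneg _)
  have hcomm : ((a0 * w0 * a0⁻¹ * w0⁻¹ : (Matrix (Fin n) (Fin n) F)ˣ) :
      Matrix (Fin n) (Fin n) F) = Matrix.diagonal t := by
    change Matrix.diagonal d * rv F n * Matrix.diagonal d' * rv F n = _
    rw [Matrix.mul_assoc (Matrix.diagonal d), Matrix.mul_assoc (Matrix.diagonal d), rv_conj,
      Matrix.diagonal_mul_diagonal]
  have hM : ∀ A : hs, ∃ M0 : ℕ, ∀ M, M0 ≤ M → NW n fun i =>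
      ‖((P : Matrix (Fin n) (Fin n) F) * A * ((P⁻¹ : (Matrix (Fin n) (Fin n) F)ˣ) :
        Matrix (Fin n) (Fin n) F) * Matrix.diagonal t ^ M).charpoly.coeff i‖ :=
    fun A => nw_asym (hP A.1 A.2) ht0 ht
  choose M0 hM0 using hM
  refine ⟨P⁻¹ * a0 * P, P⁻¹ * w0 * P, ∑ A, M0 A, fun M hMM A hA => ?_⟩
  have h1 : P⁻¹ * a0 * P * (P⁻¹ * w0 * P) * (P⁻¹ * a0 * P)⁻¹ * (P⁻¹ * w0 * P)⁻¹ =
      P⁻¹ * (a0 * w0 * a0⁻¹ * w0⁻¹) * P := by group
  have h2 : ∀ X : (Matrix (Fin n) (Fin n) F)ˣ, (P⁻¹ * X * P) ^ M = P⁻¹ * X ^ M * P := by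
    intro X
    have := conj_pow (i := M) (a := P⁻¹) (b := X)
    rwa [inv_inv] at this
  rw [h1, ← Units.val_pow_eq_pow_val, h2]
  have h3 : (A * ((P⁻¹ * (a0 * w0 * a0⁻¹ * w0⁻¹) ^ M * P : (Matrix (Fin n) (Fin n) F)ˣ) :
      Matrix (Fin n) (Fin n) F)).charpoly =
      ((P : Matrix (Fin n) (Fin n) F) * A * ((P⁻¹ : (Matrix (Fin n) (Fin n) F)ˣ) :
        Matrix (Fin n) (Fin n) F) * Matrix.diagonal t ^ M).charpoly := by
    rw [← hcomm, Units.val_mul, Units.val_mul, Units.val_pow_eq_pow_val, ← Matrix.mul_assoc,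
      ← Matrix.mul_assoc, Matrix.charpoly_mul_comm, ← Matrix.mul_assoc, ← Matrix.mul_assoc]
  rw [h3]
  exact hM0 ⟨A, hA⟩ M ((Finset.single_le_sum (fun _ _ => Nat.zero_le _)
    (Finset.mem_univ (⟨A, hA⟩ : hs))).trans hMM)

end

end Vale.Agent.P011.H496.Spl
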