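import Vale.Agent.P011.H487.SplDef

/-!
# Characteristic polynomials of products with large powers of diagonal matrices (helper496)

If all leading minors of `A` are different from zero and the entries of the diagonal matrix `T`
have strictly decreasing norms, then for large `M` the characteristic polynomial of `A T ^ M`
satisfies the strict Newton condition.
-/

open Matrix Finset Filter Topology

namespace Vale.Agent.P011.H496.Spl

open Vale.Agent.P011.H487.Spl

/-- The principal minor on a set of indices. -/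
noncomputable def pmin {F : Type*} [Field F] {n : ℕ} (A : Matrix (Fin n) (Fin n) F)
    (s : Finset (Fin n)) : F :=
  (A.submatrix (Subtype.val : s → Fin n) (Subtype.val : s → Fin n)).det

theorem pmin_mul_diagonal {F : Type*} [Field F] {n : ℕ} (A : Matrix (Fin n) (Fin n) F)
    (τ : Fin n → F) (s : Finset (Fin n)) :
    pmin (A * Matrix.diagonal τ) s = pmin A s * ∏ j ∈ s, τ j := by
  unfold pmin
  have h : (A * Matrix.diagonal τ).submatrix (Subtype.val : s → Fin n) (Subtype.val : s → Fin n) =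
      A.submatrix (Subtype.val : s → Fin n) (Subtype.val : s → Fin n) *
        Matrix.diagonal fun j : s => τ j := by
    ext i j
    rw [Matrix.submatrix_apply, Matrix.mul_diagonal, Matrix.mul_diagonal, Matrix.submatrix_apply]
  rw [h, Matrix.det_mul, Matrix.det_diagonal]
  congr 1
  exact Finset.prod_coe_sort s τ

/-- The first `k` indices. -/
def ini (n k : ℕ) : Finset (Fin n) := Finset.univ.filter fun j => (j : ℕ) < k

theorem mem_ini {n k : ℕ} {j : Fin n} : j ∈ ini n k ↔ (j : ℕ) < k := by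
  simp [ini]

theorem card_ini {n k : ℕ} (hk : k ≤ n) : (ini n k).card = k := by
  unfold ini
  rw [Fin.card_filter_val_lt]
  exact min_eq_right hk

theorem pmin_ini {F : Type*} [Field F] {n : ℕ} (A : Matrix (Fin n) (Fin n) F) (k : ℕ) :
    pmin A (ini n k) = (LM A k).det := by
  unfold pmin
  rw [← det_piecewise_one_eq_submatrix_det]
  congr 1
  ext i j
  simp only [Matrix.of_apply, Finset.piecewise, mem_ini, LM]
  split_ifs <;> rfl

theorem coeff_eq {F : Type*} [Field F] {n : ℕ} (A : Matrix (Fin n) (Fin n) F) (τ : Fin n → F)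
    {k : ℕ} (hk : k ≤ n) :
    (A * Matrix.diagonal τ).charpoly.coeff (n - k) =
      (-1) ^ k * ∑ s ∈ (Finset.univ : Finset (Fin n)).powersetCard k,
        pmin A s * ∏ j ∈ s, τ j := by
  have h := charpoly_coeff_eq_sum_minors (A * Matrix.diagonal τ) k (by
    rw [Fintype.card_fin]
    exact hk)
  rw [Fintype.card_fin] at h
  rw [h]
  congr 1
  exact Finset.sum_congr rfl fun s _ => pmin_mul_diagonal A τ s

/-- The product over the first indices is the largest. -/
theorem prod_lt {n k : ℕ} {r : Fin n → ℝ} (h0 : ∀ i, 0 < r i) (hr : StrictAnti r)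
    {s : Finset (Fin n)} (hs : s.card = k) (hne : s ≠ ini n k) :
    ∏ j ∈ s, r j < ∏ j ∈ ini n k, r j := by
  classical
  have hk : k ≤ n := by
    rw [← hs]
    exact (Finset.card_le_univ s).trans_eq (Fintype.card_fin n)
  have hc : (s \ ini n k).card = (ini n k \ s).card :=
    Finset.card_sdiff_comm (by rw [hs, card_ini hk])
  have hne' : (s \ ini n k).Nonempty := by
    rw [Finset.nonempty_iff_ne_empty]
    intro h
    have h1 : s ⊆ ini n k := Finset.sdiff_eq_empty_iff_subset.1 h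
    exact hne (Finset.eq_of_subset_of_card_le h1 (by rw [hs, card_ini hk]))
  have hk0 : 0 < k := by
    rw [← hs, Finset.card_pos]
    exact hne'.mono Finset.sdiff_subset
  obtain ⟨i0, hi0⟩ : ∃ i0 : Fin n, (i0 : ℕ) = k - 1 := ⟨⟨k - 1, by omega⟩, rfl⟩
  have h1 : ∏ j ∈ s \ ini n k, r j < ∏ _j ∈ s \ ini n k, r i0 := by
    refine Finset.prod_lt_prod_of_nonempty (fun i _ => h0 i) (fun i hi => hr ?_) hne'
    have h2 := (Finset.mem_sdiff.1 hi).2
    rw [mem_ini, not_lt] at h2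
    rw [Fin.lt_def, hi0]
    omega
  have h2 : ∏ _j ∈ ini n k \ s, r i0 ≤ ∏ j ∈ ini n k \ s, r j := by
    refine Finset.prod_le_prod (fun i _ => (h0 _).le) fun i hi => hr.antitone ?_
    have h2 := (Finset.mem_sdiff.1 hi).1
    rw [mem_ini] at h2
    rw [Fin.le_def, hi0]
    omega
  rw [Finset.prod_const] at h1 h2
  rw [← hc] at h2
  have h3 : ∏ j ∈ s, r j = (∏ j ∈ s \ ini n k, r j) * ∏ j ∈ s ∩ ini n k, r j := by
    rw [← Finset.prod_sdiff (Finset.inter_subset_left : s ∩ ini n k ⊆ s),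
      Finset.sdiff_inter_self_left]
  have h4 : ∏ j ∈ ini n k, r j = (∏ j ∈ ini n k \ s, r j) * ∏ j ∈ s ∩ ini n k, r j := by
    rw [← Finset.prod_sdiff (Finset.inter_subset_right : s ∩ ini n k ⊆ ini n k),
      Finset.sdiff_inter_self_right]
  rw [h3, h4]
  exact mul_lt_mul_of_pos_right (h1.trans_le h2) (Finset.prod_pos fun i _ => h0 i)

/-- Powers of a larger number dominate. -/
theorem ev_lt {a b p q : ℝ} (hb : 0 < b) (hp : 0 < p) (hpq : p < q) :
    ∀ᶠ M : ℕ in atTop, a * p ^ M < b * q ^ M := by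
  have hq : 0 < q := hp.trans hpq
  have h1 : Tendsto (fun M : ℕ => a * (p / q) ^ M) atTop (𝓝 (a * 0)) :=
    (tendsto_pow_atTop_nhds_zero_of_lt_one (div_pos hp hq).le
      ((div_lt_one hq).2 hpq)).const_mul a
  rw [mul_zero] at h1
  filter_upwards [h1.eventually (gt_mem_nhds hb)] with M hM
  rw [div_pow, mul_div_assoc', div_lt_iff₀ (pow_pos hq M)] at hM
  exact hM

section

variable {F : Type*} [NormedField F] [IsUltrametricDist F] {n : ℕ}

theorem norm_sum_lt {ι : Type*} {s : Finset ι} {f : ι → F} {C : ℝ} (hC : 0 < C)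
    (h : ∀ i ∈ s, ‖f i‖ < C) : ‖∑ i ∈ s, f i‖ < C := by
  classical
  induction s using Finset.induction_on with
  | empty => rwa [Finset.sum_empty, norm_zero]
  | insert a s ha ih =>
    rw [Finset.sum_insert ha]
    exact (IsUltrametricDist.norm_add_le_max _ _).trans_lt
      (max_lt (h a (Finset.mem_insert_self a s)) (ih fun i hi => h i (Finset.mem_insert_of_mem hi)))

/-- The norm of the coefficients. -/
theorem norm_coeff {A : Matrix (Fin n) (Fin n) F} (hA : Lead A) {t : Fin n → F}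
    (ht0 : ∀ i, t i ≠ 0) (ht : StrictAnti fun i => ‖t i‖) {k : ℕ} (hk : k ≤ n) :
    ∀ᶠ M : ℕ in atTop, ‖(A * Matrix.diagonal t ^ M).charpoly.coeff (n - k)‖ =
      ‖(LM A k).det‖ * (∏ j ∈ ini n k, ‖t j‖) ^ M := by
  classical
  have hpos : ∀ i, 0 < ‖t i‖ := fun i => norm_pos_iff.2 (ht0 i)
  have hev : ∀ s ∈ (Finset.univ : Finset (Fin n)).powersetCard k, s ≠ ini n k →
      ∀ᶠ M : ℕ in atTop, ‖pmin A s‖ * (∏ j ∈ s, ‖t j‖) ^ M <
        ‖(LM A k).det‖ * (∏ j ∈ ini n k, ‖t j‖) ^ M := by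
    intro s hs hne
    exact ev_lt (norm_pos_iff.2 (hA k hk)) (Finset.prod_pos fun i _ => hpos i)
      (prod_lt hpos ht (Finset.mem_powersetCard.1 hs).2 hne)
  have hev2 : ∀ᶠ M : ℕ in atTop, ∀ s ∈ (Finset.univ : Finset (Fin n)).powersetCard k,
      s ≠ ini n k → ‖pmin A s‖ * (∏ j ∈ s, ‖t j‖) ^ M <
        ‖(LM A k).det‖ * (∏ j ∈ ini n k, ‖t j‖) ^ M := by
    rw [Filter.eventually_all_finset]
    intro s hs
    by_cases hne : s = ini n k
    · exact Filter.Eventually.of_forall fun M h => absurd hne h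
    · filter_upwards [hev s hs hne] with M hM _ using hM
  filter_upwards [hev2] with M hM
  have hterm : ∀ s : Finset (Fin n), ‖pmin A s * ∏ j ∈ s, t j ^ M‖ =
      ‖pmin A s‖ * (∏ j ∈ s, ‖t j‖) ^ M := by
    intro s
    rw [norm_mul, Finset.prod_pow, norm_pow, norm_prod]
  rw [Matrix.diagonal_pow, coeff_eq A (t ^ M) hk, norm_mul, norm_pow, norm_neg, norm_one,
    one_pow, one_mul]
  have hmem : ini n k ∈ (Finset.univ : Finset (Fin n)).powersetCard k :=
    Finset.mem_powersetCard.2 ⟨Finset.subset_univ _, card_ini hk⟩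
  rw [← Finset.add_sum_erase _ _ hmem]
  have e1 : ‖pmin A (ini n k) * ∏ j ∈ ini n k, (t ^ M) j‖ =
      ‖(LM A k).det‖ * (∏ j ∈ ini n k, ‖t j‖) ^ M := by
    rw [← pmin_ini]
    exact hterm _
  have hb : 0 < ‖(LM A k).det‖ * (∏ j ∈ ini n k, ‖t j‖) ^ M :=
    mul_pos (norm_pos_iff.2 (hA k hk)) (pow_pos (Finset.prod_pos fun i _ => hpos i) M)
  have e2 : ‖∑ s ∈ ((Finset.univ : Finset (Fin n)).powersetCard k).erase (ini n k),
      pmin A s * ∏ j ∈ s, (t ^ M) j‖ < ‖(LM A k).det‖ * (∏ j ∈ ini n k, ‖t j‖) ^ M := by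
    refine norm_sum_lt hb fun s hs => ?_
    obtain ⟨hs1, hs2⟩ := Finset.mem_erase.1 hs
    have := hM s hs2 hs1
    rw [← hterm] at this
    exact this
  rw [← e1] at e2 ⊢
  rw [IsUltrametricDist.norm_add_eq_max_of_norm_ne_norm e2.ne']
  exact max_eq_left e2.le

/-- **(S1)** The strict Newton condition for `A T ^ M`, `M` large. -/
theorem nw_asym {A : Matrix (Fin n) (Fin n) F} (hA : Lead A) {t : Fin n → F}
    (ht0 : ∀ i, t i ≠ 0) (ht : StrictAnti fun i => ‖t i‖) :
    ∃ M0 : ℕ, ∀ M, M0 ≤ M →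
      NW n fun i => ‖(A * Matrix.diagonal t ^ M).charpoly.coeff i‖ := by
  classical
  have hpos : ∀ i, 0 < ‖t i‖ := fun i => norm_pos_iff.2 (ht0 i)
  have h1 : ∀ᶠ M : ℕ in atTop, ∀ k ∈ Finset.range (n + 1),
      ‖(A * Matrix.diagonal t ^ M).charpoly.coeff (n - k)‖ =
        ‖(LM A k).det‖ * (∏ j ∈ ini n k, ‖t j‖) ^ M := by
    rw [Filter.eventually_all_finset]
    intro k hk
    exact norm_coeff hA ht0 ht (Nat.lt_succ_iff.1 (Finset.mem_range.1 hk))
  have hini : ∀ k, (hk : k < n) → ∏ j ∈ ini n (k + 1), ‖t j‖ =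
      (∏ j ∈ ini n k, ‖t j‖) * ‖t ⟨k, hk⟩‖ := by
    intro k hk
    have e : ini n (k + 1) = insert (⟨k, hk⟩ : Fin n) (ini n k) := by
      ext j
      rw [Finset.mem_insert, mem_ini, mem_ini, Fin.ext_iff]
      change _ ↔ (j : ℕ) = k ∨ _
      omega
    rw [e, Finset.prod_insert (by rw [mem_ini]; exact lt_irrefl k), mul_comm]
  have h2 : ∀ᶠ M : ℕ in atTop, ∀ k ∈ Finset.Ico 1 n,
      (‖(LM A (k + 1)).det‖ * ‖(LM A (k - 1)).det‖) *
        ((∏ j ∈ ini n (k + 1), ‖t j‖) * ∏ j ∈ ini n (k - 1), ‖t j‖) ^ M <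
      ‖(LM A k).det‖ ^ 2 * ((∏ j ∈ ini n k, ‖t j‖) ^ 2) ^ M := by
    rw [Filter.eventually_all_finset]
    intro k hk
    obtain ⟨hk1, hk2⟩ := Finset.mem_Ico.1 hk
    refine ev_lt (pow_pos (norm_pos_iff.2 (hA k hk2.le)) 2)
      (mul_pos (Finset.prod_pos fun i _ => hpos i) (Finset.prod_pos fun i _ => hpos i)) ?_
    obtain ⟨l, rfl⟩ : ∃ l, k = l + 1 := ⟨k - 1, by omega⟩
    rw [Nat.add_sub_cancel, hini (l + 1) hk2, hini l (by omega)]
    have hlt : ‖t ⟨l + 1, hk2⟩‖ < ‖t ⟨l, by omega⟩‖ := ht (by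
      rw [Fin.lt_def]
      exact Nat.lt_succ_self l)
    set p := ∏ j ∈ ini n l, ‖t j‖ with hp
    have hp0 : 0 < p := Finset.prod_pos fun i _ => hpos i
    have hq0 := hpos (⟨l, by omega⟩ : Fin n)
    calc p * ‖t ⟨l, by omega⟩‖ * ‖t ⟨l + 1, hk2⟩‖ * p
        = (p ^ 2 * ‖t ⟨l, by omega⟩‖) * ‖t ⟨l + 1, hk2⟩‖ := by ring
      _ < (p ^ 2 * ‖t ⟨l, by omega⟩‖) * ‖t ⟨l, by omega⟩‖ :=
          mul_lt_mul_of_pos_left hlt (mul_pos (pow_pos hp0 2) hq0)
      _ = (p * ‖t ⟨l, by omega⟩‖) ^ 2 := by ring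
  obtain ⟨M0, hM0⟩ := Filter.eventually_atTop.1 (h1.and h2)
  refine ⟨M0, fun M hM => ?_⟩
  obtain ⟨g1, g2⟩ := hM0 M hM
  refine ⟨?_, fun i hi0 hin => ?_⟩
  · have := g1 n (Finset.mem_range.2 (Nat.lt_succ_self n))
    rw [Nat.sub_self] at this
    beta_reduce
    rw [this]
    exact mul_pos (norm_pos_iff.2 (hA n le_rfl)) (pow_pos (Finset.prod_pos fun i _ => hpos i) M)
  · have e1 := g1 (n - i) (Finset.mem_range.2 (by omega))
    have e2 := g1 (n - i + 1) (Finset.mem_range.2 (by omega))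
    have e3 := g1 (n - i - 1) (Finset.mem_range.2 (by omega))
    have f1 : n - (n - i) = i := by omega
    have f2 : n - (n - i + 1) = i - 1 := by omega
    have f3 : n - (n - i - 1) = i + 1 := by omega
    rw [f1] at e1
    rw [f2] at e2
    rw [f3] at e3
    have h3 := g2 (n - i) (Finset.mem_Ico.2 ⟨by omega, by omega⟩)
    beta_reduce
    rw [e1, e2, e3, mul_pow, ← pow_mul, mul_comm M 2, pow_mul]
    rw [mul_pow] at h3
    calc ‖(LM A (n - i + 1)).det‖ * (∏ j ∈ ini n (n - i + 1), ‖t j‖) ^ M *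
          (‖(LM A (n - i - 1)).det‖ * (∏ j ∈ ini n (n - i - 1), ‖t j‖) ^ M)
        = ‖(LM A (n - i + 1)).det‖ * ‖(LM A (n - i - 1)).det‖ *
          ((∏ j ∈ ini n (n - i + 1), ‖t j‖) ^ M * (∏ j ∈ ini n (n - i - 1), ‖t j‖) ^ M) := by
          ring
      _ < _ := h3

end

end Vale.Agent.P011.H496.Spl
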