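import Vale.Agent.P011.H496.Spl.Root
import Vale.Agent.P011.H487.SplDef
import Vale.Agent.P011.H976.Newt

/-!
# The strict Newton condition is open and gives split separable polynomials (helper496)
-/

open Polynomial Matrix Module Topology

namespace Vale.Agent.P011.H496.Spl

open Vale.Agent.P011.H487.Spl

section top

variable {L : Type*} [Field L] [TopologicalSpace L] [IsTopologicalRing L] {n : ℕ}

theorem continuous_coeff' {k : ℕ} (hk : k ≤ n) :
    Continuous fun A : Matrix (Fin n) (Fin n) L => A.charpoly.coeff (n - k) := by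
  have h : ∀ A : Matrix (Fin n) (Fin n) L, A.charpoly.coeff (n - k) = (-1) ^ k *
      ∑ s ∈ (Finset.univ : Finset (Fin n)).powersetCard k,
        (A.submatrix (Subtype.val : s → Fin n) (Subtype.val : s → Fin n)).det := by
    intro A
    have := charpoly_coeff_eq_sum_minors A k (by rw [Fintype.card_fin]; exact hk)
    rw [Fintype.card_fin] at this
    exact this
  simp only [h]
  refine continuous_const.mul (continuous_finset_sum _ fun s _ => ?_)
  refine Continuous.matrix_det ?_
  exact continuous_matrix fun i j => (continuous_id.matrix_elem i.1 j.1)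

theorem continuous_coeff {i : ℕ} (hi : i ≤ n) :
    Continuous fun A : Matrix (Fin n) (Fin n) L => A.charpoly.coeff i := by
  have h := continuous_coeff' (L := L) (n := n) (k := n - i) (Nat.sub_le n i)
  have e : n - (n - i) = i := by omega
  rwa [e] at h

end top

section norm

variable {L : Type*} [NormedField L] {n : ℕ}

theorem isOpen_nw : IsOpen {A : Matrix (Fin n) (Fin n) L | NW n fun i => ‖A.charpoly.coeff i‖} := by
  have h1 : {A : Matrix (Fin n) (Fin n) L | NW n fun i => ‖A.charpoly.coeff i‖} =
      {A : Matrix (Fin n) (Fin n) L | 0 < ‖A.charpoly.coeff 0‖} ∩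
        ⋂ i ∈ Finset.Ioo 0 n, {A : Matrix (Fin n) (Fin n) L |
          ‖A.charpoly.coeff (i - 1)‖ * ‖A.charpoly.coeff (i + 1)‖ < ‖A.charpoly.coeff i‖ ^ 2} := by
    ext A
    rw [Set.mem_inter_iff, Set.mem_iInter₂]
    constructor
    · rintro ⟨h1, h2⟩
      exact ⟨h1, fun i hi => h2 i (Finset.mem_Ioo.1 hi).1 (Finset.mem_Ioo.1 hi).2⟩
    · rintro ⟨h1, h2⟩
      exact ⟨h1, fun i hi hin => h2 i (Finset.mem_Ioo.2 ⟨hi, hin⟩)⟩
  rw [h1]
  refine IsOpen.inter ?_ ?_
  · exact isOpen_lt continuous_const (continuous_coeff (Nat.zero_le n)).norm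
  · refine isOpen_biInter_finset fun i hi => ?_
    have h2 := Finset.mem_Ioo.1 hi
    exact isOpen_lt ((continuous_coeff (by omega)).norm.mul (continuous_coeff (by omega)).norm)
      ((continuous_coeff (by omega)).norm.pow 2)

/-- **Newton.** -/
theorem ss_of_nw [IsUltrametricDist L] [CompleteSpace L] {A : Matrix (Fin n) (Fin n) L}
    (h : NW n fun i => ‖A.charpoly.coeff i‖) : SS A.charpoly := by
  have hw : H976.Newt.Hen (NormedField.valuation : Valuation L NNReal) :=
    H976.Newt.hen_of_norm _ fun x => by
      rw [NormedField.valuation_apply, ← NNReal.coe_le_coe, coe_nnnorm, NNReal.coe_one]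
  refine H976.Newt.newt_splits hw A.charpoly_monic (n := n) (by
    rw [Matrix.charpoly_natDegree_eq_dim, Fintype.card_fin]) ?_ ?_
  · exact norm_pos_iff.1 h.1
  · intro i hi hin
    have h1 := h.2 i hi hin
    rw [NormedField.valuation_apply, NormedField.valuation_apply, NormedField.valuation_apply,
      ← NNReal.coe_lt_coe]
    push_cast
    exact h1

end norm

end Vale.Agent.P011.H496.Spl
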