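import Mathlib

/-!
# Characteristic polynomials with distinct roots (helper496)
-/

open Polynomial Matrix Module

namespace Vale.Agent.P011.H496.Spl

section

variable {L : Type*} [Field L] {n : ℕ}

/-- The polynomial is split and separable. -/
def SS (P : L[X]) : Prop := P.Splits ∧ P.Separable

theorem SS.exists_roots {P : L[X]} (h : SS P) (hn : P.natDegree = n) :
    ∃ s : Finset L, s.card = n ∧ ∀ r ∈ s, P.eval r = 0 := by
  classical
  have h1 : P.roots.Nodup := nodup_roots h.2
  refine ⟨P.roots.toFinset, ?_, fun r hr => ?_⟩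
  · rw [Multiset.toFinset_card_of_nodup h1, ← h.1.natDegree_eq_card_roots, hn]
  · rw [Multiset.mem_toFinset] at hr
    exact (mem_roots'.1 hr).2

/-- A monic polynomial with sufficiently many roots. -/
theorem eq_of_roots {Q : L[X]} (hm : Q.Monic) (hn : Q.natDegree ≤ n) {s : Finset L}
    (hs : s.card = n) (h : ∀ r ∈ s, Q.eval r = 0) :
    Q = ∏ r ∈ s, (X - C r) ∧ Q.natDegree = n := by
  classical
  have h1 : (s.val.map fun r => X - C r).prod ∣ Q := by
    rw [Multiset.prod_X_sub_C_dvd_iff_le_roots hm.ne_zero]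
    rw [Multiset.le_iff_subset s.nodup]
    intro r hr
    rw [mem_roots hm.ne_zero]
    exact h r hr
  have h2 : (∏ r ∈ s, (X - C r)).natDegree = n := by
    rw [natDegree_finsetProd_X_sub_C_eq_card, hs]
  have h3 : (∏ r ∈ s, (X - C r)).Monic := monic_prod_of_monic _ _ fun r _ => monic_X_sub_C r
  have h4 : Q = ∏ r ∈ s, (X - C r) := by
    refine (eq_of_monic_of_dvd_of_natDegree_le h3 hm h1 ?_)
    rw [h2]
    exact hn
  exact ⟨h4, by rw [h4, h2]⟩

theorem ss_prod (s : Finset L) : SS (∏ r ∈ s, (X - C r)) := by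
  refine ⟨?_, ?_⟩
  · refine Splits.prod fun r _ => Splits.X_sub_C r
  · rw [separable_prod_X_sub_C_iff']
    intro x _ y _ hxy
    exact hxy

/-- Eigenvectors. -/
theorem exists_eigen {A : Matrix (Fin n) (Fin n) L} {r : L} (hr : A.charpoly.eval r = 0) :
    ∃ v : Fin n → L, v ≠ 0 ∧ A *ᵥ v = r • v := by
  rw [Matrix.eval_charpoly] at hr
  obtain ⟨v, hv, h⟩ := Matrix.exists_mulVec_eq_zero_iff.mpr hr
  refine ⟨v, hv, ?_⟩
  rw [Matrix.sub_mulVec, sub_eq_zero] at h
  rw [← h]
  ext i
  rw [Matrix.scalar_apply, Matrix.mulVec_diagonal]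
  rfl

theorem eval_charpoly_of {A : Matrix (Fin n) (Fin n) L} {r : L} {v : Fin n → L} (hv : v ≠ 0)
    (h : A *ᵥ v = r • v) : A.charpoly.eval r = 0 := by
  rw [Matrix.eval_charpoly]
  refine Matrix.exists_mulVec_eq_zero_iff.mp ⟨v, hv, ?_⟩
  rw [Matrix.sub_mulVec, sub_eq_zero, h]
  ext i
  rw [Matrix.scalar_apply, Matrix.mulVec_diagonal]
  rfl

theorem aeval_mulVec {A : Matrix (Fin n) (Fin n) L} {r : L} {v : Fin n → L}
    (h : A *ᵥ v = r • v) (q : L[X]) : (aeval A q) *ᵥ v = q.eval r • v := by
  induction q using Polynomial.induction_on' with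
  | add p q hp hq => rw [map_add, Matrix.add_mulVec, hp, hq, eval_add, add_smul]
  | monomial m a =>
    have h1 : ∀ m : ℕ, (A ^ m) *ᵥ v = r ^ m • v := by
      intro m
      induction m with
      | zero => rw [pow_zero, pow_zero, Matrix.one_mulVec, one_smul]
      | succ m ih => rw [pow_succ, ← Matrix.mulVec_mulVec, h, Matrix.mulVec_smul, ih, smul_smul,
          pow_succ, mul_comm]
    rw [aeval_monomial, eval_monomial, ← Matrix.mulVec_mulVec, h1, Algebra.algebraMap_eq_smul_one,
      Matrix.smul_mulVec, Matrix.one_mulVec, smul_smul]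

/-- The inverse matrix. -/
theorem ss_inv {A A' : Matrix (Fin n) (Fin n) L} (hA : A' * A = 1) (h : SS A.charpoly) :
    SS A'.charpoly := by
  classical
  obtain ⟨s, hs, hr⟩ := h.exists_roots (n := n) (by
    rw [Matrix.charpoly_natDegree_eq_dim, Fintype.card_fin])
  have h0 : ∀ r ∈ s, A'.charpoly.eval r⁻¹ = 0 := by
    intro r hr'
    obtain ⟨v, hv, hAv⟩ := exists_eigen (hr r hr')
    have h1 : r • (A' *ᵥ v) = v := by
      rw [← Matrix.mulVec_smul, ← hAv, Matrix.mulVec_mulVec, hA, Matrix.one_mulVec]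
    have hr0 : r ≠ 0 := by
      intro h0
      rw [h0, zero_smul] at h1
      exact hv h1.symm
    refine eval_charpoly_of hv ?_
    rw [← h1, smul_smul, inv_mul_cancel₀ hr0, one_smul, h1]
  have h2 := eq_of_roots (Q := A'.charpoly) (n := n) A'.charpoly_monic (by
    rw [Matrix.charpoly_natDegree_eq_dim, Fintype.card_fin])
    (s := s.image fun r => r⁻¹) (by rw [Finset.card_image_of_injective _ inv_injective, hs])
    (by
      intro r hr'
      obtain ⟨r, hr1, rfl⟩ := Finset.mem_image.1 hr'
      exact h0 r hr1)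
  rw [h2.1]
  exact ss_prod _

end

section min

variable {K L D : Type*} [Field K] [Field L] [Algebra K L] [Ring D] [Algebra K D] {n : ℕ}

/-- **The minimal polynomial** is split if the characteristic polynomial is split and separable. -/
theorem minpoly_of_ss (G : D →ₐ[K] Matrix (Fin n) (Fin n) L) {x : D} (hx : IsIntegral K x)
    (hdeg : (minpoly K x).natDegree ≤ n) (h : SS (G x).charpoly) :
    (minpoly K x).natDegree = n ∧ ((minpoly K x).map (algebraMap K L)).Splits ∧
      (minpoly K x).map (algebraMap K L) = (G x).charpoly := by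
  classical
  obtain ⟨s, hs, hr⟩ := h.exists_roots (n := n) (by
    rw [Matrix.charpoly_natDegree_eq_dim, Fintype.card_fin])
  have hm : ((minpoly K x).map (algebraMap K L)).Monic := (minpoly.monic hx).map _
  have h0 : ∀ r ∈ s, ((minpoly K x).map (algebraMap K L)).eval r = 0 := by
    intro r hr'
    obtain ⟨v, hv, hAv⟩ := exists_eigen (hr r hr')
    have h1 := aeval_mulVec hAv ((minpoly K x).map (algebraMap K L))
    have h2 : aeval (G x) ((minpoly K x).map (algebraMap K L)) = 0 := by
      rw [aeval_map_algebraMap, aeval_algHom_apply, minpoly.aeval, map_zero]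
    rw [h2, Matrix.zero_mulVec] at h1
    exact (smul_eq_zero.1 h1.symm).resolve_right hv
  have h2 := eq_of_roots (n := n) hm (by rw [natDegree_map]; exact hdeg) hs h0
  have h3 := eq_of_roots (Q := (G x).charpoly) (n := n) (G x).charpoly_monic (by
    rw [Matrix.charpoly_natDegree_eq_dim, Fintype.card_fin]) hs hr
  refine ⟨?_, ?_, ?_⟩
  · have h4 := h2.2
    rwa [natDegree_map] at h4
  · rw [h2.1]
    exact (ss_prod s).1
  · rw [h2.1, h3.1]

end min

end Vale.Agent.P011.H496.Spl
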