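import Vale.Agent.P011.H271.PmF
import Vale.Agent.P011.H271.KSF
import Vale.Agent.P011.H496.Spl.Root

/-!
# From a dense embedding of `K` to the completions of `K` (helper496)
-/

open Module Polynomial Matrix Topology

set_option linter.unusedSectionVars false

namespace Vale.Agent.P011.H496.Spl

open Vale.Agent.P011.H738 Vale.Agent.P011.H271 Vale.Agent.P011.H271.S3

/-- The absolute value given by an embedding. -/
noncomputable def absOf {K L : Type*} [Field K] [NormedField L] (φ : K →+* L) :
    AbsoluteValue K ℝ where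
  toFun x := ‖φ x‖
  map_mul' x y := by rw [map_mul, norm_mul]
  nonneg' x := norm_nonneg _
  eq_zero' x := by rw [norm_eq_zero, map_eq_zero]
  add_le' x y := by
    rw [map_add]
    exact norm_add_le _ _

theorem absOf_apply {K L : Type*} [Field K] [NormedField L] (φ : K →+* L) (x : K) :
    absOf φ x = ‖φ x‖ := rfl

/-- The extension of an embedding in a complete field. -/
theorem exists_ext {K L M : Type*} [Field K] [NormedField L] [NormedField M] [CompleteSpace M]
    {φ : K →+* L} (hd : DenseRange φ) {ψ : K →+* M} {c : ℝ} (hc : 0 < c)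
    (h : ∀ x, ‖ψ x‖ = ‖φ x‖ ^ c) : ∃ ι : L →+* M, ∀ x, ι (φ x) = ψ x := by
  let uK : UniformSpace K := UniformSpace.comap φ inferInstance
  have hui : IsUniformInducing φ := ⟨rfl⟩
  have hut : IsUniformAddGroup K := IsUniformAddGroup.comap φ
  have huc : UniformContinuous ψ := by
    refine uniformContinuous_of_continuousAt_zero ψ ?_
    rw [ContinuousAt, map_zero, Metric.tendsto_nhds]
    intro ε hε
    have h1 : {y : L | ‖y‖ < ε ^ c⁻¹} ∈ 𝓝 (φ 0) := by
      rw [map_zero]
      refine (isOpen_lt continuous_norm continuous_const).mem_nhds ?_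
      change ‖(0 : L)‖ < _
      rw [norm_zero]
      exact Real.rpow_pos_of_pos hε _
    have h2 : φ ⁻¹' {y : L | ‖y‖ < ε ^ c⁻¹} ∈ 𝓝 (0 : K) := by
      have : 𝓝 (0 : K) = Filter.comap φ (𝓝 (φ 0)) := nhds_induced _ _
      rw [this]
      exact Filter.preimage_mem_comap h1
    filter_upwards [h2] with x hx
    rw [dist_zero_right, h]
    calc ‖φ x‖ ^ c < (ε ^ c⁻¹) ^ c := Real.rpow_lt_rpow (norm_nonneg _) hx hc
      _ = ε := by rw [← Real.rpow_mul hε.le, inv_mul_cancel₀ hc.ne', Real.rpow_one]
  refine ⟨IsDenseInducing.extendRingHom hui hd huc, fun x => ?_⟩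
  exact IsDenseInducing.extend_eq (hui.isDenseInducing hd) huc.continuous x

section wtr

variable {k K : Type} [Field k] [Field K] [StarRing K] [Algebra k K]

/-- The place of `K` above `v` is given by the embedding or by its conjugate. -/
theorem equiv_of_ab (hfix : ∀ x : K, star x = x ↔ x ∈ Set.range (algebraMap k K)) {v : Place k}
    {L : Type} [NontriviallyNormedField L] [IsUltrametricDist L] {φ : K →+* L}
    (hφ : ∀ c : k, ‖φ (algebraMap k K c)‖ = v.abv c) {W : Place K} (hW : Ab W v) :
    (absOf φ).IsEquiv W.abv ∨ (absOf (φ.comp (starRingEnd K))).IsEquiv W.abv := by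
  classical
  by_contra hcon
  rw [not_or] at hcon
  obtain ⟨h1, h2⟩ := hcon
  -- nontriviality
  obtain ⟨y, hy⟩ : ∃ y : k, 1 < v.abv y := by
    obtain ⟨x, hx⟩ := v.normalized.2.1
    refine ⟨x, ?_⟩
    rw [hx]
    exact_mod_cast one_lt_qq v
  have hstar : ∀ c : k, (starRingEnd K) (algebraMap k K c) = algebraMap k K c := fun c =>
    (hfix _).2 ⟨c, rfl⟩
  have hy0 : algebraMap k K y ≠ 0 := by
    intro h0
    rw [map_eq_zero] at h0
    rw [h0, map_zero] at hy
    linarith
  have n1 : (absOf φ).IsNontrivial := ⟨algebraMap k K y, hy0, by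
    rw [absOf_apply, hφ]
    exact hy.ne'⟩
  have n2 : (absOf (φ.comp (starRingEnd K))).IsNontrivial := ⟨algebraMap k K y, hy0, by
    rw [absOf_apply, RingHom.comp_apply, hstar, hφ]
    exact hy.ne'⟩
  have n3 : W.abv.IsNontrivial := ⟨algebraMap k K y, hy0, by
    intro h0
    have h3 := hW.le_one_iff.1 h0.le
    linarith⟩
  obtain ⟨x, hx1, hx2, hx3⟩ : ∃ x : K, 1 < W.abv x ∧ ‖φ x‖ < 1 ∧ ‖φ (star x)‖ < 1 := by
    by_cases h12 : (absOf φ).IsEquiv (absOf (φ.comp (starRingEnd K)))
    · obtain ⟨x, hx1, hx2⟩ := AbsoluteValue.exists_one_lt_lt_one_of_not_isEquiv n3 n1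
        (fun h => h1 h.symm)
      exact ⟨x, hx1, hx2, h12.lt_one_iff.1 hx2⟩
    · have hfam : ∀ i : Fin 3, ((![W.abv, absOf φ, absOf (φ.comp (starRingEnd K))] :
          Fin 3 → AbsoluteValue K ℝ) i).IsNontrivial := by
        intro i
        fin_cases i
        · exact n3
        · exact n1
        · exact n2
      have hpair : Pairwise fun i j : Fin 3 =>
          ¬ ((![W.abv, absOf φ, absOf (φ.comp (starRingEnd K))] : Fin 3 → AbsoluteValue K ℝ)
            i).IsEquiv ((![W.abv, absOf φ, absOf (φ.comp (starRingEnd K))] :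
              Fin 3 → AbsoluteValue K ℝ) j) := by
        intro i j hij
        fin_cases i <;> fin_cases j
        · exact absurd rfl hij
        · exact fun h => h1 h.symm
        · exact fun h => h2 h.symm
        · exact h1
        · exact absurd rfl hij
        · exact h12
        · exact h2
        · exact fun h => h12 h.symm
        · exact absurd rfl hij
      obtain ⟨x, hx1, hx2⟩ := AbsoluteValue.exists_one_lt_lt_one_pi_of_not_isEquiv hfam hpair 0
      exact ⟨x, hx1, hx2 1 (by decide), hx2 2 (by decide)⟩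
  -- the equation of `x`
  obtain ⟨t, ht⟩ : ∃ t : k, algebraMap k K t = x + star x :=
    (hfix _).1 (by rw [star_add, star_star, add_comm])
  obtain ⟨m, hm⟩ : ∃ m : k, algebraMap k K m = x * star x :=
    (hfix _).1 (by rw [star_mul, star_star])
  have ht1 : v.abv t < 1 := by
    rw [← hφ, ht, map_add]
    exact (IsUltrametricDist.norm_add_le_max _ _).trans_lt (max_lt hx2 hx3)
  have hm1 : v.abv m < 1 := by
    rw [← hφ, hm, map_mul, norm_mul]
    exact mul_lt_one_of_nonneg_of_lt_one_left (norm_nonneg _) hx2 hx3.le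
  have e : x * x = algebraMap k K t * x - algebraMap k K m := by
    rw [ht, hm]
    ring
  have h5 : W.abv (x * x) < W.abv x := by
    rw [e, sub_eq_add_neg]
    refine (W.nonarch _ _).trans_lt (max_lt ?_ ?_)
    · rw [map_mul]
      exact mul_lt_of_lt_one_left (zero_lt_one.trans hx1) (hW.lt_one ht1)
    · rw [AbsoluteValue.map_neg]
      exact (hW.lt_one hm1).trans hx1
  rw [map_mul] at h5
  have h6 : W.abv x * 1 < W.abv x * W.abv x := mul_lt_mul_of_pos_left hx1 (zero_lt_one.trans hx1)
  linarith

/-- **The embedding in the completion.** -/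
theorem exists_iota (hfix : ∀ x : K, star x = x ↔ x ∈ Set.range (algebraMap k K)) {v : Place k}
    {L : Type} [NontriviallyNormedField L] [IsUltrametricDist L] {φ : K →+* L}
    (hd : DenseRange φ) (hφ : ∀ c : k, ‖φ (algebraMap k K c)‖ = v.abv c) {W : Place K}
    (hW : Ab W v) : ∃ ι : L →+* W.comp, (∀ x, ι (φ x) = algebraMap K W.comp x) ∨
      ∀ x, ι (φ (star x)) = algebraMap K W.comp x := by
  rcases equiv_of_ab hfix hφ hW with h | h
  · obtain ⟨c, hc, h1⟩ := AbsoluteValue.isEquiv_iff_exists_rpow_eq.1 h
    obtain ⟨ι, hι⟩ := exists_ext hd (ψ := algebraMap K W.comp) hc fun x => by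
      rw [norm_alg, ← congrFun h1 x]
      rfl
    exact ⟨ι, Or.inl hι⟩
  · obtain ⟨c, hc, h1⟩ := AbsoluteValue.isEquiv_iff_exists_rpow_eq.1 h
    have hd' : DenseRange (φ.comp (starRingEnd K)) := by
      have h2 : Function.Surjective (starRingEnd K) := fun x => ⟨star x, star_star x⟩
      intro y
      have h3 := hd y
      refine closure_mono ?_ h3
      rintro _ ⟨x, rfl⟩
      obtain ⟨z, hz⟩ := h2 x
      exact ⟨z, by rw [RingHom.comp_apply, hz]⟩
    obtain ⟨ι, hι⟩ := exists_ext hd' (ψ := algebraMap K W.comp) hc fun x => by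
      rw [norm_alg, ← congrFun h1 x]
      rfl
    exact ⟨ι, Or.inr hι⟩

end wtr

section alg

variable {k K A : Type} [Field k] [Field K] [StarRing K] [Ring A] [StarRing A]
  [Algebra k K] [Algebra K A] [StarModule K A] {n : ℕ}

/-- The transposed conjugate of a representation. -/
def trp {L : Type} [Field L] (g : A →+* Matrix (Fin n) (Fin n) L) :
    A →+* Matrix (Fin n) (Fin n) L where
  toFun x := (g (star x))ᵀ
  map_one' := by rw [star_one, map_one, Matrix.transpose_one]
  map_mul' x y := by rw [star_mul, map_mul, Matrix.transpose_mul]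
  map_zero' := by rw [star_zero, map_zero, Matrix.transpose_zero]
  map_add' x y := by rw [star_add, map_add, Matrix.transpose_add]

theorem ss_map {L M : Type*} [Field L] [Field M] (ι : L →+* M) {P : L[X]} (h : SS P) :
    SS (P.map ι) := ⟨h.1.map ι, h.2.map⟩

/-- **Splitting over the completions of `K`.** -/
theorem good_of_ss (hfix : ∀ x : K, star x = x ↔ x ∈ Set.range (algebraMap k K)) {v : Place k}
    {L : Type} [NontriviallyNormedField L] [IsUltrametricDist L] {φ : K →+* L}
    (hd : DenseRange φ) (hφ : ∀ c : k, ‖φ (algebraMap k K c)‖ = v.abv c)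
    {g : A →+* Matrix (Fin n) (Fin n) L} (hg : ∀ c : K, g (algebraMap K A c) =
      algebraMap L _ (φ c)) {x : A} (hx : IsIntegral K x)
    (hdeg : (minpoly K x).natDegree ≤ n) (h1 : SS (g x).charpoly) (h2 : SS (g (star x)).charpoly)
    {W : Place K} (hW : Ab W v) :
    (minpoly K x).natDegree = n ∧ ((minpoly K x).map (algebraMap K W.comp)).Splits := by
  obtain ⟨ι, hι | hι⟩ := exists_iota hfix hd hφ hW
  · let G : A →ₐ[K] Matrix (Fin n) (Fin n) W.comp :=
      { (ι.mapMatrix).comp g with
        commutes' := fun c => by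
          change ι.mapMatrix (g (algebraMap K A c)) = _
          rw [hg, RingHom.mapMatrix_apply]
          ext i j
          rw [Matrix.map_apply, Matrix.algebraMap_matrix_apply, Matrix.algebraMap_matrix_apply]
          split_ifs with h
          · exact hι c
          · exact map_zero ι }
    have h3 : (G x).charpoly = (g x).charpoly.map ι := by
      change ((g x).map ι).charpoly = _
      rw [Matrix.charpoly_map]
    have h4 := minpoly_of_ss G hx hdeg (by rw [h3]; exact ss_map ι h1)
    exact ⟨h4.1, h4.2.1⟩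
  · let G : A →ₐ[K] Matrix (Fin n) (Fin n) W.comp :=
      { (ι.mapMatrix).comp (trp g) with
        commutes' := fun c => by
          change ι.mapMatrix ((g (star (algebraMap K A c)))ᵀ) = _
          rw [← algebraMap_star_comm, hg, RingHom.mapMatrix_apply]
          ext i j
          rw [Matrix.map_apply, Matrix.transpose_apply, Matrix.algebraMap_matrix_apply,
            Matrix.algebraMap_matrix_apply]
          by_cases h : i = j
          · rw [if_pos h.symm, if_pos h]
            exact hι c
          · rw [if_neg (fun h' => h h'.symm), if_neg h]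
            exact map_zero ι }
    have h3 : (G x).charpoly = (g (star x)).charpoly.map ι := by
      change (((g (star x))ᵀ).map ι).charpoly = _
      rw [Matrix.charpoly_map, Matrix.charpoly_transpose]
    have h4 := minpoly_of_ss G hx hdeg (by rw [h3]; exact ss_map ι h2)
    exact ⟨h4.1, h4.2.1⟩

end alg

end Vale.Agent.P011.H496.Spl
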