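import Vale.Agent.P011.H496.Spl.GL
import Vale.Agent.P011.H496.Spl.Open
import Vale.Agent.P011.H496.Spl.WTr
import Vale.Agent.P011.H487.SplU2
import Vale.Agent.P011.H961.Model
import Vale.Agent.P011.H271.WauF
import Vale.Agent.P011.H271.StarF
import Vale.Agent.P011.W.Gen

/-!
# Split elements over a global function field (helper496)

`D` is a division algebra of odd degree `n` with an involution of the second kind over a global
function field, split at the finitely many places of `S`.  Given finitely many unitary elements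
`h`, there is a unitary element `g` of reduced norm one, close to one at the places of `T`, such
that the minimal polynomials of the `h g ^ m` have degree `n` and split over the completions of `K`
at all places above `S`.  Every characteristic.
-/

open Module Polynomial Matrix Topology

set_option linter.unusedSectionVars false

namespace Vale.Agent.P011.H496.Spl

open Vale.Agent.P011.H738 Vale.Agent.P011.H271 Vale.Agent.P011.H271.S3 Vale.Agent.P011.H698
open Vale.Agent.P011.H961 Vale.Agent.P011.H487.Spl Vale.Agent.P011.H271.StarF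
open Vale.Agent.P011.H487 (HForm)

/-- Isotropy for hermitian forms from isotropy for hermitian matrices. -/
theorem hform_iso {L : Type} [Field L] [StarRing L]
    (hm : ∀ (n : ℕ), 3 ≤ n → ∀ H : Matrix (Fin n) (Fin n) L, Hᴴ = H →
      ∃ x : Fin n → L, x ≠ 0 ∧ x ⬝ᵥ (H *ᵥ star x) = 0)
    (V : Type) [AddCommGroup V] [Module L V] [FiniteDimensional L V] (h : HForm L V)
    (_ : h.Nondeg) (h3 : 3 ≤ finrank L V) : ∃ z : V, z ≠ 0 ∧ h.b z z = 0 := by
  classical
  let b := Module.finBasis L V
  obtain ⟨x, hx0, hx⟩ := hm (finrank L V) h3 (Matrix.of fun i j => h.b (b i) (b j)) (by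
    ext i j
    rw [Matrix.conjTranspose_apply, Matrix.of_apply, Matrix.of_apply, h.star_b])
  refine ⟨∑ i, x i • b i, ?_, ?_⟩
  · intro h0
    apply hx0
    have h1 := Fintype.linearIndependent_iff.1 b.linearIndependent x h0
    funext i
    exact h1 i
  · have hl : ∀ (s : Finset (Fin (finrank L V))) (c : Fin (finrank L V) → L) (y : V),
        h.b (∑ i ∈ s, c i • b i) y = ∑ i ∈ s, c i * h.b (b i) y := by
      intro s c y
      induction s using Finset.induction_on with
      | empty =>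
        rw [Finset.sum_empty, Finset.sum_empty]
        have h0 := h.smul_left 0 0 y
        rwa [zero_smul, zero_mul] at h0
      | insert a s ha ih => rw [Finset.sum_insert ha, Finset.sum_insert ha, h.add_left,
          h.smul_left, ih]
    have hr : ∀ y : V, h.b y (∑ i, x i • b i) = ∑ i, star (x i) * h.b y (b i) := by
      intro y
      rw [← h.star_b, hl, star_sum]
      refine Finset.sum_congr rfl fun i _ => ?_
      rw [star_mul', h.star_b]
    rw [hl]
    rw [← hx]
    rw [dotProduct]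
    refine Finset.sum_congr rfl fun i _ => ?_
    rw [hr, Matrix.mulVec, dotProduct]
    congr 1
    refine Finset.sum_congr rfl fun j _ => ?_
    rw [Matrix.of_apply, Pi.star_apply, mul_comm]

variable {k K D : Type} [Field k] [GFF k] [Field K] [StarRing K] [DivisionRing D] [StarRing D]
  [Algebra k K] [Algebra k D] [Algebra K D] [IsScalarTower k K D] [StarModule K D] {n N : ℕ}

/-- The commutator of unitary elements. -/
def cm (a w : D) : D := a * w * star a * star w

theorem uni_comm {x : D} (h : x * star x = 1) : star x * x = 1 := by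
  have h0 : x ≠ 0 := left_ne_zero_of_mul_eq_one h
  rw [← inv_eq_of_mul_eq_one_right h, inv_mul_cancel₀ h0]

theorem uni_mul {x y : D} (hx : x * star x = 1) (hy : y * star y = 1) :
    (x * y) * star (x * y) = 1 := by
  rw [star_mul, mul_assoc, ← mul_assoc y, hy, one_mul, hx]

theorem uni_star {x : D} (hx : x * star x = 1) : star x * star (star x) = 1 := by
  rw [star_star]
  exact uni_comm hx

theorem uni_cm {a w : D} (ha : a * star a = 1) (hw : w * star w = 1) :
    cm a w * star (cm a w) = 1 :=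
  uni_mul (uni_mul (uni_mul ha hw) (uni_star ha)) (uni_star hw)

theorem uni_pow {x : D} (hx : x * star x = 1) (m : ℕ) : x ^ m * star (x ^ m) = 1 := by
  induction m with
  | zero => rw [pow_zero, star_one, mul_one]
  | succ m ih => rw [pow_succ]; exact uni_mul ih hx

/-- The element of the group. -/
def toUA (x : D) (hx : x * star x = 1) : UA D := ⟨⟨x, star x, hx, uni_comm hx⟩, hx⟩

/-- The required property at the places above `v`. -/
def GoodV (K : Type) [Field K] [Algebra k K] [Algebra K D] (n : ℕ) (v : Place k) (x : D) : Prop :=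
  ∀ W : Place K, Ab W v → (minpoly K x).natDegree = n ∧
    ((minpoly K x).map (algebraMap K W.comp)).Splits

/-- Small neighbourhoods in the product of four matrix spaces. -/
theorem exists_ball4 {L : Type} [NormedField L] {O : Set (Matrix (Fin n) (Fin n) L ×
      Matrix (Fin n) (Fin n) L × Matrix (Fin n) (Fin n) L × Matrix (Fin n) (Fin n) L)}
    (hO : IsOpen O) {X : Matrix (Fin n) (Fin n) L × Matrix (Fin n) (Fin n) L ×
      Matrix (Fin n) (Fin n) L × Matrix (Fin n) (Fin n) L} (hX : X ∈ O) :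
    ∃ δ : ℝ, 0 < δ ∧ ∀ Y : Matrix (Fin n) (Fin n) L × Matrix (Fin n) (Fin n) L ×
      Matrix (Fin n) (Fin n) L × Matrix (Fin n) (Fin n) L, Eb δ (Y.1 - X.1) →
      Eb δ (Y.2.1 - X.2.1) → Eb δ (Y.2.2.1 - X.2.2.1) → Eb δ (Y.2.2.2 - X.2.2.2) → Y ∈ O := by
  let _ : NormedAddCommGroup (Matrix (Fin n) (Fin n) L) := Matrix.normedAddCommGroup
  obtain ⟨ε, hε, h⟩ := Metric.isOpen_iff.1 hO X hX
  refine ⟨ε / 2, half_pos hε, fun Y h1 h2 h3 h4 => h ?_⟩
  have key : ∀ {A : Matrix (Fin n) (Fin n) L}, Eb (ε / 2) A → ‖A‖ ≤ ε / 2 := fun {A} hA =>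
    (Matrix.norm_le_iff (half_pos hε).le).2 hA
  rw [Metric.mem_ball, Prod.dist_eq, Prod.dist_eq, Prod.dist_eq, dist_eq_norm, dist_eq_norm,
    dist_eq_norm, dist_eq_norm]
  exact (max_le (key h1) (max_le (key h2) (max_le (key h3) (key h4)))).trans_lt (half_lt_self hε)

/-- **The local statement**, for a local model. -/
theorem loc_gen (hfix : ∀ x : K, star x = x ↔ x ∈ Set.range (algebraMap k K))
    (hint : ∀ x : D, IsIntegral K x) (hdeg : ∀ x : D, (minpoly K x).natDegree ≤ n)
    (hst : ∀ (c : k) (x : D), star (c • x) = c • star x) (B : Basis (Fin N) k D) {v : Place k}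
    {L : Type} [NontriviallyNormedField L] [IsUltrametricDist L] [CompleteSpace L] {φ : K →+* L}
    (hd : DenseRange φ) (hφ : ∀ c : k, ‖φ (algebraMap k K c)‖ = v.abv c)
    {g : D →+* Matrix (Fin n) (Fin n) L} (hg : ∀ c : K, g (algebraMap K D c) =
      algebraMap L _ (φ c))
    (hup : ∃ C : ℝ, 1 ≤ C ∧ ∀ (c : ℝ) (x : D), 0 ≤ c → Bd B v c x → Eb (C * c) (g x))
    {E : Set (Matrix (Fin n) (Fin n) L)ˣ}
    (hE : E ⊆ closure (Set.range fun u : UA D =>
      Units.map (g : D →* Matrix (Fin n) (Fin n) L) (u : Dˣ)))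
    (hloc : ∀ hs : Finset (Matrix (Fin n) (Fin n) L), (∀ A ∈ hs, A.det ≠ 0) →
      ∃ a w : (Matrix (Fin n) (Fin n) L)ˣ, a ∈ E ∧ w ∈ E ∧ ∃ M0 : ℕ, ∀ M, M0 ≤ M → ∀ A ∈ hs,
        NW n fun i => ‖(A * ((a * w * a⁻¹ * w⁻¹ : (Matrix (Fin n) (Fin n) L)ˣ) :
          Matrix (Fin n) (Fin n) L) ^ M).charpoly.coeff i‖)
    (hs : Finset D) (hu : ∀ h ∈ hs, h * star h = 1) :
    ∃ M0 : ℕ, ∀ M, M0 ≤ M → ∃ (a w : D) (ε : ℝ), a * star a = 1 ∧ w * star w = 1 ∧ 0 < ε ∧
      ∀ a' w' : D, a' * star a' = 1 → w' * star w' = 1 → Sm B v ε (a' - a) → Sm B v ε (w' - w) →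
        ∀ h ∈ hs, GoodV K n v (h * cm a' w' ^ M) := by
  classical
  obtain ⟨A0, W0, hA0, hW0, M0, hM0⟩ := hloc (hs.image g) (by
    intro A hA
    obtain ⟨h, hh, rfl⟩ := Finset.mem_image.1 hA
    intro h0
    have h1 : (g h * g (star h)).det = 1 := by
      rw [← map_mul, hu h hh, map_one, Matrix.det_one]
    rw [Matrix.det_mul, h0, zero_mul] at h1
    exact zero_ne_one h1)
  refine ⟨M0, fun M hM => ?_⟩
  -- the open set
  let O : Set (Matrix (Fin n) (Fin n) L × Matrix (Fin n) (Fin n) L × Matrix (Fin n) (Fin n) L ×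
      Matrix (Fin n) (Fin n) L) := {p | ∀ h ∈ hs, NW n fun i =>
        ‖(g h * (p.1 * p.2.1 * p.2.2.1 * p.2.2.2) ^ M).charpoly.coeff i‖}
  have hO : IsOpen O := by
    have h1 : O = ⋂ h ∈ hs, (fun p : Matrix (Fin n) (Fin n) L × Matrix (Fin n) (Fin n) L ×
        Matrix (Fin n) (Fin n) L × Matrix (Fin n) (Fin n) L =>
          g h * (p.1 * p.2.1 * p.2.2.1 * p.2.2.2) ^ M) ⁻¹'
        {A : Matrix (Fin n) (Fin n) L | NW n fun i => ‖A.charpoly.coeff i‖} := by
      ext p
      rw [Set.mem_iInter₂]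
      exact Iff.rfl
    rw [h1]
    refine isOpen_biInter_finset fun h _ => isOpen_nw.preimage ?_
    exact continuous_const.mul ((((continuous_fst.mul (continuous_fst.comp continuous_snd)).mul
      (continuous_fst.comp (continuous_snd.comp continuous_snd))).mul
      (continuous_snd.comp (continuous_snd.comp continuous_snd))).pow M)
  let F : (Matrix (Fin n) (Fin n) L)ˣ × (Matrix (Fin n) (Fin n) L)ˣ →
      Matrix (Fin n) (Fin n) L × Matrix (Fin n) (Fin n) L × Matrix (Fin n) (Fin n) L ×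
      Matrix (Fin n) (Fin n) L := fun p =>
    ((p.1 : Matrix (Fin n) (Fin n) L), (p.2 : Matrix (Fin n) (Fin n) L),
      ((p.1⁻¹ : (Matrix (Fin n) (Fin n) L)ˣ) : Matrix (Fin n) (Fin n) L),
      ((p.2⁻¹ : (Matrix (Fin n) (Fin n) L)ˣ) : Matrix (Fin n) (Fin n) L))
  have hF : Continuous F := by
    refine Continuous.prodMk (Units.continuous_val.comp continuous_fst)
      (Continuous.prodMk (Units.continuous_val.comp continuous_snd)
      (Continuous.prodMk (Units.continuous_val.comp (continuous_inv.comp continuous_fst))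
      (Units.continuous_val.comp (continuous_inv.comp continuous_snd))))
  have hmem : (A0, W0) ∈ F ⁻¹' O := by
    intro h hh
    have h1 := hM0 M hM (g h) (Finset.mem_image_of_mem g hh)
    exact h1
  have hcl : (A0, W0) ∈ closure ((Set.range fun u : UA D =>
      Units.map (g : D →* Matrix (Fin n) (Fin n) L) (u : Dˣ)) ×ˢ (Set.range fun u : UA D =>
      Units.map (g : D →* Matrix (Fin n) (Fin n) L) (u : Dˣ))) := by
    rw [closure_prod_eq]
    exact ⟨hE hA0, hE hW0⟩
  obtain ⟨⟨X, Y⟩, hXY, ⟨a, ha⟩, ⟨w, hw⟩⟩ := mem_closure_iff.1 hcl _ (hO.preimage hF) hmem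
  have hga : ∀ u : UA D, (((Units.map (g : D →* Matrix (Fin n) (Fin n) L) (u : Dˣ))⁻¹ :
      (Matrix (Fin n) (Fin n) L)ˣ) : Matrix (Fin n) (Fin n) L) = g (star ((u : Dˣ) : D)) := by
    intro u
    rw [← ua_inv]
    rfl
  have hp : ((g ((a : Dˣ) : D)), (g ((w : Dˣ) : D)), (g (star ((a : Dˣ) : D))),
      (g (star ((w : Dˣ) : D)))) ∈ O := by
    have h1 : F (X, Y) ∈ O := hXY
    have h2 : F (X, Y) = ((g ((a : Dˣ) : D)), (g ((w : Dˣ) : D)), (g (star ((a : Dˣ) : D))),
        (g (star ((w : Dˣ) : D)))) := by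
      change ((X : Matrix (Fin n) (Fin n) L), (Y : Matrix (Fin n) (Fin n) L),
        ((X⁻¹ : (Matrix (Fin n) (Fin n) L)ˣ) : Matrix (Fin n) (Fin n) L),
        ((Y⁻¹ : (Matrix (Fin n) (Fin n) L)ˣ) : Matrix (Fin n) (Fin n) L)) = _
      have ha' : Units.map (g : D →* Matrix (Fin n) (Fin n) L) (a : Dˣ) = X := ha
      have hw' : Units.map (g : D →* Matrix (Fin n) (Fin n) L) (w : Dˣ) = Y := hw
      rw [← ha', ← hw', hga, hga]
      rfl
    rwa [h2] at h1
  obtain ⟨δ, hδ, hball⟩ := exists_ball4 hO hp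
  obtain ⟨C, hC, hup⟩ := hup
  obtain ⟨C', hC', -, -, hstar, -⟩ := exists_const B hst
  have hC0 : 0 < C := zero_lt_one.trans_le hC
  have hC'0 : 0 < C' v := zero_lt_one.trans_le (hC' v)
  have hε : 0 < δ / (C * C' v) := div_pos hδ (mul_pos hC0 hC'0)
  refine ⟨((a : Dˣ) : D), ((w : Dˣ) : D), δ / (C * C' v), a.2, w.2, hε,
    fun a' w' ha' hw' h1 h2 h hh => ?_⟩
  have e1 : ∀ x : D, Sm B v (δ / (C * C' v)) x → Eb δ (g x) := by
    intro x hx
    have h3 := hup _ x hε.le hx.bd
    intro i j
    refine (h3 i j).trans ?_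
    rw [mul_div_assoc', div_le_iff₀ (mul_pos hC0 hC'0)]
    have h4 : C * δ * 1 ≤ C * δ * C' v := mul_le_mul_of_nonneg_left (hC' v) (mul_pos hC0 hδ).le
    nlinarith [h4]
  have e2 : ∀ x : D, Sm B v (δ / (C * C' v)) x → Eb δ (g (star x)) := by
    intro x hx
    have h3 := hup _ (star x) (mul_nonneg hC'0.le hε.le) (hstar v _ x hε.le hx.bd)
    intro i j
    refine (h3 i j).trans (le_of_eq ?_)
    field_simp
  have hq : ((g a'), (g w'), (g (star a')), (g (star w'))) ∈ O := by
    refine hball _ ?_ ?_ ?_ ?_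
    · change Eb δ (g a' - g _)
      rw [← map_sub]
      exact e1 _ h1
    · change Eb δ (g w' - g _)
      rw [← map_sub]
      exact e1 _ h2
    · change Eb δ (g (star a') - g (star _))
      rw [← map_sub, ← star_sub]
      exact e2 _ h1
    · change Eb δ (g (star w') - g (star _))
      rw [← map_sub, ← star_sub]
      exact e2 _ h2
  have h3 : NW n fun i => ‖(g (h * cm a' w' ^ M)).charpoly.coeff i‖ := by
    have h4 := hq h hh
    have e3 : g (h * cm a' w' ^ M) = g h * (g a' * g w' * g (star a') * g (star w')) ^ M := by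
      rw [map_mul, map_pow, cm, map_mul, map_mul, map_mul]
    rw [e3]
    exact h4
  have h5 : SS (g (h * cm a' w' ^ M)).charpoly := ss_of_nw h3
  have hx : (h * cm a' w' ^ M) * star (h * cm a' w' ^ M) = 1 :=
    uni_mul (hu h hh) (uni_pow (uni_cm ha' hw') M)
  have h6 : SS (g (star (h * cm a' w' ^ M))).charpoly :=
    ss_inv (by rw [← map_mul, uni_comm hx, map_one]) h5
  intro W hW
  exact good_of_ss hfix hd hφ hg (hint _) (hdeg _) h5 h6 hW

end Vale.Agent.P011.H496.Spl
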